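import Vale.Agent.P218CH.Dom
import Vale.Agent.P218SQ.Defs
import Vale.Agent.P218CO.Jet2

/-! # Holomorphic families which depend on the cuts and have a limit -/

open Set Filter Topology Metric

namespace Vale.Agent.P218HB

open Vale.Agent.P218SQ (Pt Adm)
open Vale.Agent.P218CO (J2 cj)

/-- the constants which describe the domains -/
structure Cst where
  /-- the margin in the domains of the end parameters -/
  K : ℝ
  /-- the radius of the domain -/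
  r : ℝ
  /-- the lower bound for the cuts -/
  w1 : ℝ
  /-- the gain in the rate of convergence -/
  k : ℝ
  one_le : 1 ≤ K
  r_pos : 0 < r
  k_pos : 0 < k
  big : ∀ w, w1 ≤ w → P218CH.Big K w
  sub : 2 ≤ r * w1

variable {ι τ : Type} [Fintype ι] [Fintype τ]

/-- the domain of the parameters for the cuts `W` -/
def Cst.dom (c : Cst) (W : ι → ℝ) : Set (Pt ι τ) := P218SQ.dom 1 c.K c.r W

/-- admissible cuts and parameters -/
def Cst.Ok (c : Cst) (W : ι → ℝ) (z : Pt ι τ) : Prop := Adm c.w1 W ∧ z ∈ c.dom W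

/-- smaller domains -/
structure Cst.Le (c' c : Cst) : Prop where
  K : c'.K = c.K
  k : c'.k = c.k
  r : c'.r ≤ c.r
  w1 : c.w1 ≤ c'.w1

section
variable {D G : Type} [NormedAddCommGroup G] [NormedSpace ℂ G]

/-- `g W z y` is holomorphic in `z` and close to the bounded holomorphic family `gb z y`,
uniformly for `y ∈ U` -/
structure HB (c : Cst) (U : Set D) (g : (ι → ℝ) → Pt ι τ → D → G) (gb : Pt ι τ → D → G) :
    Prop where
  holo : ∀ W, Adm c.w1 W → ∀ y ∈ U, DifferentiableOn ℂ (fun z => g W z y) (c.dom W)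
  holob : ∀ y ∈ U, DifferentiableOn ℂ (fun z => gb z y) (ball 0 c.r)
  bdb : ∃ C, ∀ z ∈ ball (0 : Pt ι τ) c.r, ∀ y ∈ U, ‖gb z y‖ ≤ C
  close : ∃ C, ∀ W z, c.Ok W z → ∀ y ∈ U, ‖g W z y - gb z y‖ ≤ C * ∑ i, W i ^ (-1 - c.k)

/-- `g W z y` is locally Lipschitz in `W`, uniformly in `z` and in `y ∈ U` -/
def Lp (c : Cst) (U : Set D) (g : (ι → ℝ) → Pt ι τ → D → G) : Prop :=
  ∀ W, Adm c.w1 W → ∃ L : ℝ, ∀ᶠ W' in 𝓝 W, ∀ z, c.Ok W z → c.Ok W' z → ∀ y ∈ U,
    ‖g W' z y - g W z y‖ ≤ L * ‖W' - W‖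

/-- jets in which the first variable is measured on the scale `l` -/
def nj (l : ℝ) (j : J2 G) : J2 G :=
  ((j.1.1, (l : ℂ) • j.1.2.1, j.1.2.2), ((l : ℂ) ^ 2 • j.2.1, (l : ℂ) • j.2.2.1, j.2.2.2))

variable [NormedAddCommGroup D] [NormedSpace ℝ D]

/-- families of functions of class `C²` whose two-jets satisfy `HB` and whose one-jets satisfy
`Lp` -/
structure HF (c : Cst) (d1 d2 : D) (U : Set D) (g : (ι → ℝ) → Pt ι τ → D → G)
    (gb : Pt ι τ → D → G) : Prop where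
  cd : ∀ W z, c.Ok W z → ∀ y ∈ U, ContDiffAt ℝ 2 (g W z) y
  cdb : ∀ z ∈ ball (0 : Pt ι τ) c.r, ∀ y ∈ U, ContDiffAt ℝ 2 (gb z) y
  hb : HB c U (fun W z y => cj d1 d2 (g W z) y) fun z y => cj d1 d2 (gb z) y
  lp : Lp c U fun W z y => (cj d1 d2 (g W z) y).1

/-- the same on a half cylinder, with normalised jets -/
structure HN (c : Cst) (s : ℝ) (g : (ι → ℝ) → Pt ι τ → ℝ × ℝ → G) (gb : Pt ι τ → ℝ × ℝ → G) :
    Prop where
  cd : ∀ W z, c.Ok W z → ∀ p : ℝ × ℝ, s < p.1 → ContDiffAt ℝ 2 (g W z) p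
  cdb : ∀ z ∈ ball (0 : Pt ι τ) c.r, ∀ p : ℝ × ℝ, s < p.1 → ContDiffAt ℝ 2 (gb z) p
  hb : HB c {p : ℝ × ℝ | s < p.1} (fun W z p => nj p.1 (cj (1, 0) (0, 1) (g W z) p))
    fun z p => nj p.1 (cj (1, 0) (0, 1) (gb z) p)
  lp : Lp c {p : ℝ × ℝ | s < p.1} fun W z p => (nj p.1 (cj (1, 0) (0, 1) (g W z) p)).1

end

end Vale.Agent.P218HB
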