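import Vale.Agent.P218HB.Calc

/-! # Holomorphic families along the real family of parameters -/

open Set Filter Topology Metric Asymptotics

set_option linter.unusedSectionVars false

namespace Vale.Agent.P218HB

open Vale.Agent.P218SQ (Pt Adm ofReal)
open Vale.Agent.P218LB (lvl)
open Vale.Agent.P218CO

variable {ι τ : Type} [Fintype ι] [Fintype τ] {D G : Type}
  [NormedAddCommGroup G] [NormedSpace ℂ G]
  {c : Cst} {U : Set D} {g : (ι → ℝ) → Pt ι τ → D → G} {gb : Pt ι τ → D → G}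

/-- a Cauchy estimate on the polydisc contained in the domain -/
lemma sub_zero_le {v M : ℝ} (hv : c.w1 ≤ v) {f : Pt ι τ → G}
    (hf : DifferentiableOn ℂ f (c.dom fun _ => v)) (hM : ∀ z, c.Ok (fun _ => v) z → ‖f z‖ ≤ M)
    {z : Pt ι τ} (h1 : ‖z.1‖ * v ≤ 1 / 2) (h2 : ‖z.2‖ < c.r / 2) :
    ‖f z - f 0‖ ≤ 9 * v * M * ‖z‖ := by
  have hA := c.adm_const (ι := ι) hv
  have v0 : 0 < v := by linarith [c.ge hv]
  have hr := c.r_pos
  have M0 := (norm_nonneg _).trans (hM 0 (Cst.ok_zero hA))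
  have k1 : ∀ a ∈ ball (0 : ι → ℂ) (3 / 4 / v), c.Ok (fun _ => v) (a, z.2) := fun a ha =>
    Cst.ok_of hA (fun j => ((le_div_iff₀ v0).1 ((norm_le_pi_norm a j).trans
      (mem_ball_zero_iff.1 ha).le))) (by simp only; linarith)
  have k2 : ∀ b ∈ ball (0 : τ → ℂ) c.r, c.Ok (fun _ => v) (0, b) := fun b hb =>
    Cst.ok_of hA (fun j => by simp; norm_num) (mem_ball_zero_iff.1 hb)
  have e : 3 / 4 / v - 1 / 8 / v = 5 / 8 / v := by ring
  have a1 := lip_inner (f := fun a => f (a, z.2)) (x := z.1) (y := 0) (r := 1 / 8 / v)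
    (by positivity) (hf.comp (by fun_prop) fun a ha => (k1 a ha).2) (fun a ha => hM _ (k1 a ha))
    (by rw [e, mem_ball_zero_iff, lt_div_iff₀ v0]; linarith)
    (by rw [e]; exact mem_ball_self (by positivity))
  have a2 := lip_inner (f := fun b => f (0, b)) (x := z.2) (y := 0) (half_pos hr)
    (hf.comp (by fun_prop) fun b hb => (k2 b hb).2) (fun b hb => hM _ (k2 b hb))
    (mem_ball_zero_iff.2 (by linarith)) (mem_ball_self (by linarith))
  rw [sub_zero] at a1 a2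
  have b1 : M / (1 / 8 / v) = 8 * v * M := by field_simp
  have b2 : M / (c.r / 2) ≤ v * M := by
    rw [div_le_iff₀ (half_pos hr)]
    nlinarith [mul_le_mul_of_nonneg_left hv hr.le, c.sub]
  have a3 := a1.trans (mul_le_mul b1.le (norm_fst_le z) (norm_nonneg _) (by positivity))
  have a4 := a2.trans (mul_le_mul b2 (norm_snd_le z) (norm_nonneg _) (by positivity))
  have a5 := norm_sub_le_norm_sub_add_norm_sub (f z) (f (0, z.2)) (f 0)
  exact a5.trans ((add_le_add a3 a4).trans (le_of_eq (by ring)))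

/-- **First order expansion along the real family**, uniformly in `y`. -/
theorem HB.lin (h : HB c U g gb) {ε : ℝ} (hε : 0 < ε) :
    ∀ᶠ q : ℕ × (ι → ℝ) × (τ → ℝ) in atTop ×ˢ 𝓝 0, ∀ y ∈ U,
      ‖g (fun _ => lvl q.1 q.2) (ofReal q.2) y
        - g (fun _ => lvl q.1 (0 : (ι → ℝ) × (τ → ℝ))) (ofReal 0) y
        - fderiv ℂ (fun z => gb z y) 0 (ofReal q.2)‖ ≤ ε * ‖q.2‖ := by
  obtain ⟨C, h0, hC⟩ := h.close'
  obtain ⟨B, b0, hB⟩ := h.bdb'
  have hr := c.r_pos
  have t1 : Tendsto (fun v : ℝ => 9 * (C * Fintype.card ι) * v ^ (-c.k)) atTop (𝓝 0) := by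
    simpa using (tendsto_rpow_neg_atTop c.k_pos).const_mul (9 * (C * Fintype.card ι))
  filter_upwards [P218LB.tendsto_lvl.eventually_ge_atTop c.w1, Cst.ev_norm (half_pos hr), c.ev_ok,
    Cst.ev_norm (show 0 < ε / 2 * c.r ^ 2 / (3 * B + 1) by positivity),
    P218LB.tendsto_lvl.eventually (t1.eventually_le_const (half_pos hε))]
    with q h1 h2 h3 h4 h5 y hy
  set v := lvl q.1 q.2 with hv
  have v0 : 0 < v := P218LB.lvl_pos _ _
  have hn := norm_ofReal q.2
  have q0 := norm_nonneg q.2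
  have k1 : ∀ u, v ≤ u → ∀ z, c.Ok (fun _ => u) z →
      ‖g (fun _ => u) z y - gb z y‖ ≤ C * Fintype.card ι * v ^ (-c.k) * v⁻¹ := fun u hu z hz => by
    refine (hC _ z hz y hy).trans ?_
    rw [mul_assoc, mul_assoc, ← Real.rpow_neg_one, ← Real.rpow_add v0,
      show -c.k + -1 = -1 - c.k by ring]
    exact mul_le_mul_of_nonneg_left (c.rate_le v0 fun _ => hu) h0
  have k2 := taylor_two (x := 0) (h := ofReal q.2) (h.holob y hy) (fun u hu => hB u hu y hy)
    (by linarith)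
  have k3 : 3 * B * (‖q.2‖ / c.r) ^ 2 ≤ ε / 2 * ‖q.2‖ := by
    rw [lt_div_iff₀ (by positivity)] at h4
    rw [div_pow, ← mul_div_assoc, div_le_iff₀ (by positivity)]
    nlinarith
  rw [zero_add, hn] at k2
  have k4 : ‖(g (fun _ => v) (ofReal q.2) y - gb (ofReal q.2) y)
      - (g (fun _ => lvl q.1 (0 : (ι → ℝ) × (τ → ℝ))) 0 y - gb 0 y)‖
      ≤ 9 * (C * Fintype.card ι) * v ^ (-c.k) * ‖q.2‖ := by
    rw [P218LB.lvl_zero]
    rcases P218LB.lvl_cases q.1 q.2 with e | e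
    · rw [← e]
      refine (sub_zero_le (f := fun z => g (fun _ => v) z y - gb z y) h1
        ((h.holo _ h3.1 y hy).sub ((h.holob y hy).mono (Cst.dom_subset h3.1))) (k1 v le_rfl)
        (by simpa [ofReal, norm_cpx] using P218LB.norm_mul_lvl q.1 q.2)
        ((norm_snd_le _).trans_lt (by rwa [hn]))).trans (le_of_eq ?_)
      rw [hn]
      field_simp
    · have a1 := k1 v le_rfl _ h3
      have a2 := k1 _ (P218LB.lvl_le q.1 q.2) 0
        (Cst.ok_zero (c.adm_const (h1.trans (P218LB.lvl_le q.1 q.2))))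
      rw [← hv] at e
      rw [e] at a1 a2
      have a3 : 0 ≤ C * Fintype.card ι * v ^ (-c.k) := by positivity
      refine (norm_sub_le_of_le a1 a2).trans ?_
      nlinarith [mul_le_mul_of_nonneg_left (norm_fst_le q.2) a3]
  rw [ofReal_zero]
  refine le_trans (le_of_eq (congrArg norm ?_)) ((norm_add_le_of_le k4 k2).trans ?_)
  · abel
  · nlinarith [mul_le_mul_of_nonneg_right h5 q0]

lemma tendsto_cut (q : ℕ × (ι → ℝ) × (τ → ℝ)) :
    Tendsto (fun q' : ℕ × (ι → ℝ) × (τ → ℝ) => (fun _ : ι => lvl q'.1 q'.2)) (𝓝 q)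
      (𝓝 fun _ => lvl q.1 q.2) := by
  refine tendsto_pi_nhds.2 fun _ => ?_
  refine ((P218LB.continuous_lvl q.1).tendsto q.2).comp (continuous_snd.tendsto q) |>.congr' ?_
  filter_upwards [continuous_fst.tendsto q ((isOpen_discrete {q.1}).mem_nhds rfl)] with q' h
  rw [show q'.1 = q.1 from h]
  rfl

/-- **Continuity along the real family**, uniformly in `y`. -/
theorem HB.cont (h : HB c U g gb) (hl : Lp c U g) :
    ∀ᶠ q : ℕ × (ι → ℝ) × (τ → ℝ) in atTop ×ˢ 𝓝 0, ∀ ε : ℝ, 0 < ε → ∀ᶠ q' in 𝓝 q, ∀ y ∈ U,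
      ‖g (fun _ => lvl q'.1 q'.2) (ofReal q'.2) y - g (fun _ => lvl q.1 q.2) (ofReal q.2) y‖
        ≤ ε := by
  filter_upwards [c.ev_ok, P218LB.tendsto_lvl.eventually_gt_atTop c.w1,
    Cst.ev_norm c.r_pos] with q h1 h2 h3 ε hε
  obtain ⟨L, hL⟩ := hl _ h1.1
  obtain ⟨L', -, hL'⟩ := h.lipz h1
  have t1 := tendsto_cut q
  have t2 : Tendsto (fun q' : ℕ × (ι → ℝ) × (τ → ℝ) => ofReal q'.2) (𝓝 q) (𝓝 (ofReal q.2)) :=
    ((ofL ι τ).continuous.comp continuous_snd).tendsto q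
  have t3 := ((tendsto_iff_norm_sub_tendsto_zero.1 t1).const_mul L).add
    ((tendsto_iff_norm_sub_tendsto_zero.1 t2).const_mul L')
  rw [mul_zero, mul_zero, add_zero] at t3
  have t4 : ∀ᶠ q' : ℕ × (ι → ℝ) × (τ → ℝ) in 𝓝 q, c.w1 < lvl q'.1 q'.2 := by
    refine (((P218LB.continuous_lvl q.1).tendsto q.2).comp
      (continuous_snd.tendsto q)).eventually_const_lt h2 |>.mp ?_
    filter_upwards [continuous_fst.tendsto q ((isOpen_discrete {q.1}).mem_nhds rfl)] with q' h h'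
    rwa [show q'.1 = q.1 from h]
  filter_upwards [t1.eventually hL, t2.eventually hL', t2.eventually h1.nhds,
    t3.eventually_le_const hε, t4] with q' a1 a2 a3 a4 a5 y hy
  have a6 := a1 _ a3 (Cst.ok_of (c.adm_const a5.le)
    (fun j => (Cst.norm_fst_lvl _ _ j).trans (by norm_num)) a3.2.2) y hy
  exact ((norm_sub_le_norm_sub_add_norm_sub _ _ _).trans (add_le_add a6 (a2 y hy))).trans a4

/-- a family which vanishes identically has a limit which vanishes to first order -/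
theorem HB.deriv_zero (h : HB c U g gb) {y : D} (hy : y ∈ U)
    (h0 : ∀ W z, c.Ok W z → g W z y = 0) (b : (ι → ℝ) × (τ → ℝ)) :
    gb 0 y = 0 ∧ fderiv ℂ (fun z => gb z y) 0 (ofReal b) = 0 := by
  constructor
  · refine norm_le_zero_iff.1 (le_of_forall_pos_le_add fun ε hε => ?_)
    obtain ⟨q, h1, h2⟩ := ((h.tendsto hε).and c.ev_ok).exists
    simpa [h0 _ _ h2] using (h1 y hy).le
  · refine norm_le_zero_iff.1 (le_of_forall_pos_le_add fun ε hε => ?_)
    have hb : 0 < ‖b‖ + 1 := by positivity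
    have t1 : Tendsto (fun q : ℕ × (ι → ℝ) × (τ → ℝ) => (q.1, (0 : (ι → ℝ) × (τ → ℝ))))
        (atTop ×ˢ 𝓝 0) (atTop ×ˢ 𝓝 0) := tendsto_fst.prodMk tendsto_const_nhds
    have t2 : Tendsto (fun p : ℕ × ℝ => (p.1, p.2 • b)) (atTop ×ˢ 𝓝[>] 0) (atTop ×ˢ 𝓝 0) :=
      tendsto_fst.prodMk (((continuous_id.smul continuous_const).tendsto' 0 0
        (zero_smul ℝ b)).comp (tendsto_snd.mono_right nhdsWithin_le_nhds))
    obtain ⟨p, ⟨h1, h2, h3⟩, h4⟩ := ((t2.eventually ((h.lin (div_pos hε hb)).and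
      (c.ev_ok.and (t1.eventually c.ev_ok)))).and
        (tendsto_snd.eventually self_mem_nhdsWithin)).exists
    have h5 := h1 y hy
    have p0 : 0 < p.2 := h4
    rw [h0 _ _ h2, h0 _ _ h3, sub_zero, zero_sub, norm_neg, ← ofL_apply, map_smul,
      ContinuousLinearMap.map_smul_of_tower, norm_smul, norm_smul, Real.norm_of_nonneg p0.le,
      mul_left_comm, mul_le_mul_iff_right₀ p0] at h5
    refine h5.trans ?_
    rw [zero_add, div_mul_eq_mul_div, div_le_iff₀ hb]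
    nlinarith

end Vale.Agent.P218HB
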