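import Vale.Agent.P218HB.Basic

/-! # The calculus of holomorphic families -/

open Set Filter Topology Metric

set_option linter.unusedSectionVars false

namespace Vale.Agent.P218HB

open Vale.Agent.P218SQ (Pt Adm ofReal)
open Vale.Agent.P218LB (lvl)
open Vale.Agent.P218CO

variable {ι τ : Type} [Fintype ι] [Fintype τ] {D D' G G' : Type}
  [NormedAddCommGroup G] [NormedSpace ℂ G] [NormedAddCommGroup G'] [NormedSpace ℂ G']
  {c c' : Cst} {U U' : Set D} {g g₁ : (ι → ℝ) → Pt ι τ → D → G} {gb gb₁ : Pt ι τ → D → G}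
  {g' : (ι → ℝ) → Pt ι τ → D → G'} {gb' : Pt ι τ → D → G'}

namespace HB

lemma mono (h : HB c U g gb) (hc : c'.Le c) (hU : U' ⊆ U) : HB c' U' g gb where
  holo W hW y hy := (h.holo W (hc.adm hW) y (hU hy)).mono (hc.dom W)
  holob y hy := (h.holob y (hU hy)).mono hc.ball
  bdb := h.bdb.imp fun _ hC z hz y hy => hC z (hc.ball hz) y (hU hy)
  close := h.close.imp fun _ hC W z hz y hy => hc.k ▸ hC W z (hc.ok hz) y (hU hy)

lemma bdb' (h : HB c U g gb) :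
    ∃ C, 0 ≤ C ∧ ∀ z ∈ ball (0 : Pt ι τ) c.r, ∀ y ∈ U, ‖gb z y‖ ≤ C := by
  obtain ⟨C, hC⟩ := h.bdb
  exact ⟨|C|, abs_nonneg C, fun z hz y hy => (hC z hz y hy).trans (le_abs_self C)⟩

lemma close' (h : HB c U g gb) : ∃ C, 0 ≤ C ∧ ∀ W z, c.Ok W z → ∀ y ∈ U,
    ‖g W z y - gb z y‖ ≤ C * ∑ i, W i ^ (-1 - c.k) := by
  obtain ⟨C, hC⟩ := h.close
  exact ⟨|C|, abs_nonneg C, fun W z hz y hy => (hC W z hz y hy).trans
    (mul_le_mul_of_nonneg_right (le_abs_self C) (Cst.rate_nonneg hz.1))⟩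

lemma bd (h : HB c U g gb) : ∃ C, 0 ≤ C ∧ ∀ W z, c.Ok W z → ∀ y ∈ U, ‖g W z y‖ ≤ C := by
  obtain ⟨C, h0, hC⟩ := h.bdb'
  obtain ⟨C', h0', hC'⟩ := h.close'
  refine ⟨C + C' * Fintype.card ι, by positivity, fun W z hz y hy => ?_⟩
  have h1 := c.rate_le (W := W) one_pos fun i => by linarith [c.ge (hz.1 i).1]
  rw [Real.one_rpow, mul_one] at h1
  have h2 := (hC' W z hz y hy).trans (mul_le_mul_of_nonneg_left h1 h0')
  linarith [hC z hz.mem_ball y hy, norm_le_norm_add_norm_sub' (g W z y) (gb z y)]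

lemma congr (h : HB c U g gb) (e : ∀ W z, c.Ok W z → ∀ y ∈ U, g₁ W z y = g W z y)
    (eb : ∀ z ∈ ball (0 : Pt ι τ) c.r, ∀ y ∈ U, gb₁ z y = gb z y) : HB c U g₁ gb₁ where
  holo W hW y hy := (h.holo W hW y hy).congr fun z hz => e W z ⟨hW, hz⟩ y hy
  holob y hy := (h.holob y hy).congr fun z hz => eb z hz y hy
  bdb := h.bdb.imp fun _ hC z hz y hy => eb z hz y hy ▸ hC z hz y hy
  close := h.close.imp fun _ hC W z hz y hy => by
    rw [e W z hz y hy, eb z hz.mem_ball y hy]; exact hC W z hz y hy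

lemma const {k : D → G} {C : ℝ} (hk : ∀ y ∈ U, ‖k y‖ ≤ C) :
    HB c U (fun (_ : ι → ℝ) (_ : Pt ι τ) => k) fun _ => k where
  holo _ _ _ _ := differentiableOn_const _
  holob _ _ := differentiableOn_const _
  bdb := ⟨C, fun _ _ => hk⟩
  close := ⟨0, fun _ _ _ _ _ => by simp⟩

lemma pre {V : Set D'} (h : HB c U g gb) {T : D' → D} (hT : MapsTo T V U) :
    HB c V (fun W z y => g W z (T y)) fun z y => gb z (T y) where
  holo W hW _ hy := h.holo W hW _ (hT hy)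
  holob _ hy := h.holob _ (hT hy)
  bdb := h.bdb.imp fun _ hC z hz _ hy => hC z hz _ (hT hy)
  close := h.close.imp fun _ hC W z hz _ hy => hC W z hz _ (hT hy)

lemma prod (h : HB c U g gb) (h' : HB c U g' gb') :
    HB c U (fun W z y => (g W z y, g' W z y)) fun z y => (gb z y, gb' z y) where
  holo W hW y hy := (h.holo W hW y hy).prodMk (h'.holo W hW y hy)
  holob y hy := (h.holob y hy).prodMk (h'.holob y hy)
  bdb := by
    obtain ⟨C, hC⟩ := h.bdb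
    obtain ⟨C', hC'⟩ := h'.bdb
    exact ⟨max C C', fun z hz y hy => max_le_max (hC z hz y hy) (hC' z hz y hy)⟩
  close := by
    obtain ⟨C, hC⟩ := h.close
    obtain ⟨C', hC'⟩ := h'.close
    refine ⟨max C C', fun W z hz y hy => ?_⟩
    rw [max_mul_of_nonneg _ _ (Cst.rate_nonneg hz.1)]
    exact max_le_max (hC W z hz y hy) (hC' W z hz y hy)

lemma map (h : HB c U g gb) {A : D → G →L[ℂ] G'} {M : ℝ} (hA : ∀ y ∈ U, ‖A y‖ ≤ M) :
    HB c U (fun W z y => A y (g W z y)) fun z y => A y (gb z y) where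
  holo W hW y hy := (A y).differentiable.comp_differentiableOn (h.holo W hW y hy)
  holob y hy := (A y).differentiable.comp_differentiableOn (h.holob y hy)
  bdb := by
    obtain ⟨C, hC⟩ := h.bdb
    exact ⟨M * C, fun z hz y hy => (A y).le_of_opNorm_le_of_le (hA y hy) (hC z hz y hy)⟩
  close := by
    obtain ⟨C, hC⟩ := h.close
    refine ⟨M * C, fun W z hz y hy => ?_⟩
    rw [← map_sub, mul_assoc]
    exact (A y).le_of_opNorm_le_of_le (hA y hy) (hC W z hz y hy)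

lemma clm (h : HB c U g gb) (A : G →L[ℂ] G') :
    HB c U (fun W z y => A (g W z y)) fun z y => A (gb z y) :=
  h.map (A := fun _ => A) fun _ _ => le_rfl

lemma pi {σ : Type} [Fintype σ] {g : σ → (ι → ℝ) → Pt ι τ → D → G} {gb : σ → Pt ι τ → D → G}
    (h : ∀ a, HB c U (g a) (gb a)) :
    HB c U (fun W z y a => g a W z y) fun z y a => gb a z y where
  holo W hW y hy := differentiableOn_pi.2 fun a => (h a).holo W hW y hy
  holob y hy := differentiableOn_pi.2 fun a => (h a).holob y hy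
  bdb := by
    choose C h0 hC using fun a => (h a).bdb'
    exact ⟨∑ a, C a, fun z hz y hy => (pi_norm_le_iff_of_nonneg (Finset.sum_nonneg fun a _ =>
      h0 a)).2 fun a => (hC a z hz y hy).trans (Finset.single_le_sum (fun a _ => h0 a)
        (Finset.mem_univ a))⟩
  close := by
    choose C h0 hC using fun a => (h a).close'
    refine ⟨∑ a, C a, fun W z hz y hy => (pi_norm_le_iff_of_nonneg (mul_nonneg
      (Finset.sum_nonneg fun a _ => h0 a) (Cst.rate_nonneg hz.1))).2 fun a =>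
        (hC a W z hz y hy).trans (mul_le_mul_of_nonneg_right ?_ (Cst.rate_nonneg hz.1))⟩
    exact Finset.single_le_sum (fun a _ => h0 a) (Finset.mem_univ a)

lemma comp (h : HB c U g gb) {Θ : G → G'} {g0 : G} {ρ M : ℝ} (hρ : 0 < ρ)
    (hΘ : DifferentiableOn ℂ Θ (ball g0 (2 * ρ))) (hM : ∀ x ∈ ball g0 (2 * ρ), ‖Θ x‖ ≤ M)
    (hg : ∀ W z, c.Ok W z → ∀ y ∈ U, g W z y ∈ ball g0 ρ)
    (hgb : ∀ z ∈ ball (0 : Pt ι τ) c.r, ∀ y ∈ U, gb z y ∈ ball g0 ρ) :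
    HB c U (fun W z y => Θ (g W z y)) fun z y => Θ (gb z y) := by
  have hs : ball g0 ρ ⊆ ball g0 (2 * ρ) := ball_subset_ball (by linarith)
  have e : 2 * ρ - ρ = ρ := by ring
  refine ⟨fun W hW y hy => hΘ.comp (h.holo W hW y hy) fun z hz => hs (hg W z ⟨hW, hz⟩ y hy),
    fun y hy => hΘ.comp (h.holob y hy) fun z hz => hs (hgb z hz y hy),
    ⟨M, fun z hz y hy => hM _ (hs (hgb z hz y hy))⟩, ?_⟩
  obtain ⟨C, hC⟩ := h.close
  refine ⟨M / ρ * C, fun W z hz y hy => (lip_inner hρ hΘ hM (e.symm ▸ hg W z hz y hy)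
    (e.symm ▸ hgb z hz.mem_ball y hy)).trans ?_⟩
  have := (norm_nonneg _).trans (hM g0 (mem_ball_self (by linarith)))
  rw [mul_assoc]
  exact mul_le_mul_of_nonneg_left (hC W z hz y hy) (by positivity)

/-- the limit family is Lipschitz at the origin -/
lemma lipb (h : HB c U g gb) : ∃ L, 0 ≤ L ∧ ∀ z : Pt ι τ, ‖z‖ < c.r / 2 → ∀ y ∈ U,
    ‖gb z y - gb 0 y‖ ≤ L * ‖z‖ := by
  obtain ⟨C, h0, hC⟩ := h.bdb'
  have hr := c.r_pos
  refine ⟨C / (c.r / 2), by positivity, fun z hz y hy => ?_⟩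
  simpa using lip_inner (half_pos hr) (h.holob y hy) (fun u hu => hC u hu y hy) (x := z) (y := 0)
    (mem_ball_zero_iff.2 (by linarith)) (mem_ball_self (by linarith))

lemma norm_fderiv_le (h : HB c U g gb) :
    ∃ L, 0 ≤ L ∧ ∀ y ∈ U, ‖fderiv ℂ (fun z => gb z y) 0‖ ≤ L := by
  obtain ⟨C, h0, hC⟩ := h.bdb'
  have hr := c.r_pos
  exact ⟨C / (c.r / 2), by positivity, fun y hy => fderiv_le_inner (half_pos hr) (h.holob y hy)
    (fun u hu => hC u hu y hy) (mem_ball_self (by linarith))⟩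

lemma hasFDerivAt (h : HB c U g gb) {y : D} (hy : y ∈ U) :
    HasFDerivAt (fun z => gb z y) (fderiv ℂ (fun z => gb z y) 0) 0 :=
  ((h.holob y hy).differentiableAt (ball_mem_nhds _ c.r_pos)).hasFDerivAt

/-- on small domains the family is uniformly close to `gb 0` -/
lemma near (h : HB c U g gb) {ε : ℝ} (hε : 0 < ε) : ∀ᶠ c' in c.sm,
    (∀ W z, c'.Ok W z → ∀ y ∈ U, ‖g W z y - gb 0 y‖ < ε) ∧
      ∀ z ∈ ball (0 : Pt ι τ) c'.r, ∀ y ∈ U, ‖gb z y - gb 0 y‖ < ε := by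
  obtain ⟨L, h0, hL⟩ := h.lipb
  obtain ⟨C, hC⟩ := h.close
  filter_upwards [c.ev_le, c.ev_r (half_pos c.r_pos), c.ev_r (show 0 < ε / 3 / (L + 1) by
    positivity), c.ev_rate (ι := ι) C (show 0 < ε / 3 by positivity)] with c' h1 h2 h3 h4
  have k : ∀ z ∈ ball (0 : Pt ι τ) c'.r, ∀ y ∈ U, ‖gb z y - gb 0 y‖ ≤ ε / 3 := fun z hz y hy => by
    rw [mem_ball_zero_iff] at hz
    have h5 := (le_div_iff₀ (by positivity)).1 (hz.le.trans h3)
    nlinarith [hL z (hz.trans_le h2) y hy, norm_nonneg z]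
  refine ⟨fun W z hz y hy => ?_, fun z hz y hy => by linarith [k z hz y hy]⟩
  linarith [k z hz.mem_ball y hy, (hC W z (h1.ok hz) y hy).trans (h4 W hz.1),
    norm_sub_le_norm_sub_add_norm_sub (g W z y) (gb z y) (gb 0 y)]

/-- local Lipschitz bound in the parameter -/
lemma lipz (h : HB c U g gb) {W : ι → ℝ} {z : Pt ι τ} (hz : c.Ok W z) :
    ∃ L, 0 ≤ L ∧ ∀ᶠ z' in 𝓝 z, ∀ y ∈ U, ‖g W z' y - g W z y‖ ≤ L * ‖z' - z‖ := by
  obtain ⟨C, h0, hC⟩ := h.bd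
  obtain ⟨ρ, hρ, hb⟩ := Metric.isOpen_iff.1 (c.isOpen_dom W) z hz.2
  refine ⟨C / (ρ / 2), by positivity, ?_⟩
  filter_upwards [ball_mem_nhds z (show 0 < ρ - ρ / 2 by linarith)] with z' hz' y hy
  exact lip_inner (half_pos hρ) ((h.holo W hz.1 y hy).mono hb)
    (fun u hu => hC W u ⟨hz.1, hb hu⟩ y hy) hz' (mem_ball_self (by linarith))

/-- uniform convergence along the real family -/
lemma tendsto (h : HB c U g gb) {ε : ℝ} (hε : 0 < ε) :
    ∀ᶠ q : ℕ × (ι → ℝ) × (τ → ℝ) in atTop ×ˢ 𝓝 0, ∀ y ∈ U,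
      ‖g (fun _ => lvl q.1 q.2) (ofReal q.2) y - gb 0 y‖ < ε := by
  obtain ⟨c', -, h1, -⟩ := Cst.exists_of_ev (h.near hε)
  exact c'.ev_ok.mono fun q hq => h1 _ _ hq

end HB

namespace Lp

lemma mono (h : Lp c U g) (hc : c'.Le c) (hU : U' ⊆ U) : Lp c' U' g := fun W hW =>
  (h W (hc.adm hW)).imp fun _ hL => hL.mono fun _ h1 z hz hz' y hy =>
    h1 z (hc.ok hz) (hc.ok hz') y (hU hy)

lemma nonneg (h : Lp c U g) {W : ι → ℝ} (hW : Adm c.w1 W) : ∃ L : ℝ, 0 ≤ L ∧ ∀ᶠ W' in 𝓝 W, ∀ z,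
    c.Ok W z → c.Ok W' z → ∀ y ∈ U, ‖g W' z y - g W z y‖ ≤ L * ‖W' - W‖ := by
  obtain ⟨L, hL⟩ := h W hW
  exact ⟨|L|, abs_nonneg L, hL.mono fun _ h1 z hz hz' y hy => (h1 z hz hz' y hy).trans
    (mul_le_mul_of_nonneg_right (le_abs_self L) (norm_nonneg _))⟩

lemma congr (h : Lp c U g) (e : ∀ W z, c.Ok W z → ∀ y ∈ U, g₁ W z y = g W z y) : Lp c U g₁ :=
  fun W hW => (h W hW).imp fun _ hL => hL.mono fun W' h1 z hz hz' y hy => by
    rw [e W z hz y hy, e W' z hz' y hy]; exact h1 z hz hz' y hy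

lemma const {k : Pt ι τ → D → G} : Lp c U fun (_ : ι → ℝ) => k :=
  fun _ _ => ⟨0, Eventually.of_forall fun _ _ _ _ _ _ => by simp⟩

lemma pre {V : Set D'} (h : Lp c U g) {T : D' → D} (hT : MapsTo T V U) :
    Lp c V fun W z y => g W z (T y) :=
  fun W hW => (h W hW).imp fun _ hL => hL.mono fun _ h1 z hz hz' _ hy => h1 z hz hz' _ (hT hy)

lemma prod (h : Lp c U g) (h' : Lp c U g') : Lp c U fun W z y => (g W z y, g' W z y) := by
  intro W hW
  obtain ⟨L, hL⟩ := h W hW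
  obtain ⟨L', hL'⟩ := h' W hW
  refine ⟨max L L', (hL.and hL').mono fun W' h1 z hz hz' y hy => ?_⟩
  rw [max_mul_of_nonneg _ _ (norm_nonneg _)]
  exact max_le_max (h1.1 z hz hz' y hy) (h1.2 z hz hz' y hy)

lemma map (h : Lp c U g) {A : D → G →L[ℂ] G'} {M : ℝ} (hA : ∀ y ∈ U, ‖A y‖ ≤ M) :
    Lp c U fun W z y => A y (g W z y) := by
  intro W hW
  obtain ⟨L, hL⟩ := h W hW
  refine ⟨M * L, hL.mono fun W' h1 z hz hz' y hy => ?_⟩
  rw [← map_sub, mul_assoc]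
  exact (A y).le_of_opNorm_le_of_le (hA y hy) (h1 z hz hz' y hy)

lemma clm (h : Lp c U g) (A : G →L[ℂ] G') : Lp c U fun W z y => A (g W z y) :=
  h.map (A := fun _ => A) fun _ _ => le_rfl

lemma pi {σ : Type} [Fintype σ] {g : σ → (ι → ℝ) → Pt ι τ → D → G} (h : ∀ a, Lp c U (g a)) :
    Lp c U fun W z y a => g a W z y := by
  intro W hW
  choose L h0 hL using fun a => (h a).nonneg hW
  refine ⟨∑ a, L a, (eventually_all.2 hL).mono fun W' h1 z hz hz' y hy =>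
    (pi_norm_le_iff_of_nonneg (mul_nonneg (Finset.sum_nonneg fun a _ => h0 a)
      (norm_nonneg _))).2 fun a => (h1 a z hz hz' y hy).trans
        (mul_le_mul_of_nonneg_right ?_ (norm_nonneg _))⟩
  exact Finset.single_le_sum (fun a _ => h0 a) (Finset.mem_univ a)

lemma comp (h : Lp c U g) {Θ : G → G'} {g0 : G} {ρ M : ℝ} (hρ : 0 < ρ)
    (hΘ : DifferentiableOn ℂ Θ (ball g0 (2 * ρ))) (hM : ∀ x ∈ ball g0 (2 * ρ), ‖Θ x‖ ≤ M)
    (hg : ∀ W z, c.Ok W z → ∀ y ∈ U, g W z y ∈ ball g0 ρ) :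
    Lp c U fun W z y => Θ (g W z y) := by
  intro W hW
  obtain ⟨L, hL⟩ := h W hW
  have e : 2 * ρ - ρ = ρ := by ring
  refine ⟨M / ρ * L, hL.mono fun W' h1 z hz hz' y hy => (lip_inner hρ hΘ hM
    (e.symm ▸ hg W' z hz' y hy) (e.symm ▸ hg W z hz y hy)).trans ?_⟩
  have := (norm_nonneg _).trans (hM g0 (mem_ball_self (by linarith)))
  rw [mul_assoc]
  exact mul_le_mul_of_nonneg_left (h1 z hz hz' y hy) (by positivity)

end Lp

end Vale.Agent.P218HB
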