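import Vale.Agent.P218HB.Jet

/-! # Change of parametrisation and differentiation in the parameters -/

open Set Filter Topology Metric

set_option linter.unusedSectionVars false

namespace Vale.Agent.P218HB

open Vale.Agent.P218SQ (Pt Adm ofReal)
open Vale.Agent.P218CO
open Vale.Agent.P218VA

variable {ι τ : Type} [Fintype ι] [Fintype τ] {D D' G : Type}
  [NormedAddCommGroup G] [NormedSpace ℂ G] [NormedAddCommGroup D] [NormedSpace ℝ D]
  [NormedAddCommGroup D'] [NormedSpace ℝ D'] {d1 d2 y0 : D} {d1' d2' y0' : D'}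
  {c : Cst} {U : Set D} {g : (ι → ℝ) → Pt ι τ → D → G} {gb : Pt ι τ → D → G}

/-- `d1`, `d2` is a basis -/
def IsBas (d1 d2 : D) : Prop := ∃ l1 l2 : D →L[ℝ] ℝ, (∀ v, v = l1 v • d1 + l2 v • d2) ∧
  l1 d1 = 1 ∧ l1 d2 = 0 ∧ l2 d1 = 0 ∧ l2 d2 = 1

lemma isBas_prod : IsBas ((1, 0) : ℝ × ℝ) (0, 1) :=
  ⟨ContinuousLinearMap.fst ℝ ℝ ℝ, ContinuousLinearMap.snd ℝ ℝ ℝ, fun v => by simp, by simp⟩

lemma isBas_E2 : IsBas u1 u2 :=
  ⟨EuclideanSpace.proj 0, EuclideanSpace.proj 1, E2_decomp, by simp [u1, u2]⟩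

lemma pd_pd_comp' {f : D → G} {T : D' → D} {y : D'} (hf : ContDiffAt ℝ 2 f (T y))
    (hT : ContDiffAt ℝ 2 T y) (d d' : D') : pd (pd (fun z => f (T z)) d) d' y =
      fderiv ℝ (fderiv ℝ f) (T y) (pd T d' y) (pd T d y) + fderiv ℝ f (T y) (pd (pd T d) d' y) := by
  have hT1 := hT.differentiableAt (by simp)
  have h1 : pd (fun z => f (T z)) d =ᶠ[𝓝 y] fun z => fderiv ℝ f (T z) (pd T d z) := by
    filter_upwards [hT.continuousAt.eventually (ev_diff hf), ev_diff hT] with z a b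
    unfold pd
    rw [fderiv_fun_comp z a b]; rfl
  have h2 : DifferentiableAt ℝ (fderiv ℝ f) (T y) :=
    (hf.fderiv_right (m := 1) (by norm_num)).differentiableAt (by simp)
  rw [pd_congr h1, add_comm]
  exact congrArg (· d') ((h2.hasFDerivAt.comp y hT1.hasFDerivAt).clm_apply
    (differentiableAt_pd hT d).hasFDerivAt).fderiv

/-- the first order part of a change of parametrisation -/
def rp1 (j : J2 G) (a : ℂ × ℂ) : G := a.1 • j.1.2.1 + a.2 • j.1.2.2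

/-- the second order part of a change of parametrisation -/
def rp2 (j : J2 G) (a b : ℂ × ℂ) : G :=
  (a.1 * b.1) • j.2.1 + (a.1 * b.2 + a.2 * b.1) • j.2.2.1 + (a.2 * b.2) • j.2.2.2

/-- the jet of a reparametrised function -/
def jrep (p : J2 (ℂ × ℂ) × J2 G) : J2 G :=
  ((p.2.1.1, rp1 p.2 p.1.1.2.1, rp1 p.2 p.1.1.2.2),
    (rp2 p.2 p.1.1.2.1 p.1.1.2.1 + rp1 p.2 p.1.2.1, rp2 p.2 p.1.1.2.1 p.1.1.2.2 + rp1 p.2 p.1.2.2.1,
      rp2 p.2 p.1.1.2.2 p.1.1.2.2 + rp1 p.2 p.1.2.2.2))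

lemma contDiff_jrep : ContDiff ℂ 1 (jrep : J2 (ℂ × ℂ) × J2 G → J2 G) := by
  unfold jrep rp1 rp2; fun_prop

lemma IsBas.cj_rep (hB : IsBas d1 d2) : ∃ l : D →L[ℝ] ℂ × ℂ, ∀ (f : D → G) (T : D' → D) (y : D'),
    ContDiffAt ℝ 2 f (T y) → ContDiffAt ℝ 2 T y →
    cj d1' d2' (fun z => f (T z)) y = jrep (jmap l (cj d1' d2' T y), cj d1 d2 f (T y)) := by
  obtain ⟨l1, l2, h, -⟩ := hB
  refine ⟨(Complex.ofRealCLM.comp l1).prod (Complex.ofRealCLM.comp l2), fun f T y hf hT => ?_⟩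
  have a1 : ∀ v, fderiv ℝ f (T y) v = rp1 (cj d1 d2 f (T y)) (l1 v, l2 v) := fun v => by
    conv_lhs => rw [h v]
    simp only [map_add, map_smul, rp1, Complex.coe_smul]
    rfl
  have a2 : ∀ v v', fderiv ℝ (fderiv ℝ f) (T y) v' v
      = rp2 (cj d1 d2 f (T y)) (l1 v, l2 v) (l1 v', l2 v') := fun v v' => by
    conv_lhs => rw [h v, h v']
    simp only [map_add, map_smul, add_apply, smul_apply, ← pd_pd_eq hf, pd_comm hf d2 d1, rp2, cj,
      ← Complex.coe_smul]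
    module
  have a3 : ∀ d, pd (fun z => f (T z)) d y = fderiv ℝ f (T y) (pd T d y) := fun d => by
    unfold pd
    rw [fderiv_fun_comp y (hf.differentiableAt (by simp)) (hT.differentiableAt (by simp))]; rfl
  rw [cj, pd_pd_comp' hf hT, pd_pd_comp' hf hT, pd_pd_comp' hf hT, a3, a3]
  simp only [a1, a2]
  rfl

/-- **Change of parametrisation.** -/
theorem HG.rep {T : D' → D} (h : HG c d1 d2 (T y0') g gb) (hB : IsBas d1 d2)
    (hT : ContDiffAt ℝ 2 T y0') :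
    HG c d1' d2' y0' (fun W z y => g W z (T y)) fun z y => gb z (T y) := by
  obtain ⟨l, hl⟩ := hB.cj_rep (G := G) (d1' := d1') (d2' := d2')
  exact HG.op (Φ := fun f y => f (T y)) (k := fun y => jmap l (cj d1' d2' T y)) (Θ := jrep)
    (P := fun _ => True) h hT.continuousAt ((jmap l).continuous.continuousAt.comp
      (contDiffAt_cj (n := 0) (by simpa using hT)).continuousAt) contDiff_jrep.contDiffAt
    contDiff_jrep.contDiffAt (fun _ _ => rfl) (Eventually.of_forall fun _ => trivial)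
    ((hT.eventually (by simp)).mono fun y hy f a _ => ⟨a.comp y hy, hl f T y a hy⟩)

section lim
variable {N : Type} {l : Filter N} [l.NeBot] {f : N → D → G}

lemma tu_clm {E F : Type} [NormedAddCommGroup E] [NormedSpace ℝ E] [NormedAddCommGroup F]
    [NormedSpace ℝ F] (A : E →L[ℝ] F) {f : N → D → E} {J : D → E}
    (h : TendstoUniformlyOn f J l U) :
    TendstoUniformlyOn (fun n y => A (f n y)) (fun y => A (J y)) l U :=
  A.uniformContinuous.comp_tendstoUniformlyOn h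

lemma IsBas.lim1 (hB : IsBas d1 d2) : ∃ A : G × G →L[ℝ] D →L[ℝ] G,
    (∀ a, A a d1 = a.1 ∧ A a d2 = a.2) ∧ ∀ (f : N → D → G) (J : D → T3 G), IsOpen U →
    (∀ᶠ n in l, ∀ y ∈ U, ContDiffAt ℝ 1 (f n) y) →
    TendstoUniformlyOn (fun n y => (f n y, pd (f n) d1 y, pd (f n) d2 y)) J l U → ∀ y ∈ U,
      HasFDerivAt (fun y => (J y).1) (A (J y).2) y ∧ ContDiffAt ℝ 1 (fun y => (J y).1) y := by
  obtain ⟨l1, l2, h, h1, h2, h3, h4⟩ := hB
  refine ⟨(ContinuousLinearMap.smulRightL ℝ D G l1).coprod (ContinuousLinearMap.smulRightL ℝ D G l2),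
    fun a => by simp [h1, h2, h3, h4], fun f J hU hf hJ => ?_⟩
  set A := (ContinuousLinearMap.smulRightL ℝ D G l1).coprod
    (ContinuousLinearMap.smulRightL ℝ D G l2) with hA
  have a1 : ∀ n y, A (pd (f n) d1 y, pd (f n) d2 y) = fderiv ℝ (f n) y := fun n y => by
    ext v
    conv_rhs => rw [h v]
    simp [hA, pd]
  have a2 : ∀ y ∈ U, HasFDerivAt (fun y => (J y).1) (A (J y).2) y := fun y hy => by
    refine hasFDerivAt_of_tendstoUniformlyOnFilter (l := l) (f := f)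
      (f' := fun n y => A (pd (f n) d1 y, pd (f n) d2 y)) (g' := fun y => A (J y).2) ?_ ?_ ?_
    · exact (tu_clm A (tu_clm (ContinuousLinearMap.snd ℝ G (G × G)) hJ)
        ).tendstoUniformlyOnFilter.mono_right (le_principal_iff.2 (hU.mem_nhds hy))
    · filter_upwards [hf.prod_mk (hU.eventually_mem hy)] with p hp
      rw [a1]
      exact ((hp.1 _ hp.2).differentiableAt (by simp)).hasFDerivAt
    · filter_upwards [hU.mem_nhds hy] with y' hy'
      exact (continuous_fst.tendsto _).comp (hJ.tendsto_at hy')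
  have a3 : ContinuousOn J U := hJ.continuousOn (hf.mono fun n hn y hy =>
    ((hn y hy).continuousAt.prodMk ((continuousAt_pd (hn y hy) _).prodMk
      (continuousAt_pd (hn y hy) _))).continuousWithinAt).frequently
  exact fun y hy => ⟨a2 y hy, contDiffAt_one_iff.2
    ⟨_, U, hU.mem_nhds hy, A.continuous.comp_continuousOn a3.snd, a2⟩⟩

/-- uniform limits of two-jets are two-jets -/
theorem IsBas.lim2 (hB : IsBas d1 d2) {J : D → J2 G} (hU : IsOpen U)
    (hf : ∀ᶠ n in l, ∀ y ∈ U, ContDiffAt ℝ 2 (f n) y)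
    (hJ : TendstoUniformlyOn (fun n y => cj d1 d2 (f n) y) J l U) {y : D} (hy : y ∈ U) :
    ContDiffAt ℝ 2 (fun y => (J y).1.1) y ∧ cj d1 d2 (fun y => (J y).1.1) y = J y := by
  obtain ⟨A, hA, h⟩ := hB.lim1 (G := G) (l := l) (U := U)
  have a0 := h f (fun y => (J y).1) hU (hf.mono fun n hn y hy => (hn y hy).of_le (by norm_num))
    (uniformContinuous_fst.comp_tendstoUniformlyOn hJ)
  have a1 := h (fun n => pd (f n) d1) (fun y => ((J y).1.2.1, (J y).2.1, (J y).2.2.1)) hU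
    (hf.mono fun n hn y hy => contDiffAt_pd2 (hn y hy) _)
    (UniformContinuous.comp_tendstoUniformlyOn (g := fun j : J2 G => (j.1.2.1, j.2.1, j.2.2.1))
      (by fun_prop) hJ)
  have a2 := h (fun n => pd (f n) d2) (fun y => ((J y).1.2.2, (J y).2.2.1, (J y).2.2.2)) hU
    (hf.mono fun n hn y hy => contDiffAt_pd2 (hn y hy) _)
    ((UniformContinuous.comp_tendstoUniformlyOn (g := fun j : J2 G => (j.1.2.2, j.2.2.1, j.2.2.2))
      (by fun_prop) hJ).congr (hf.mono fun n hn y hy => by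
        simp only [Function.comp, cj, pd_comm (hn y hy) d2 d1]))
  have b1 : pd (fun y => (J y).1.1) d1 =ᶠ[𝓝 y] fun y => (J y).1.2.1 :=
    (hU.eventually_mem hy).mono fun y hy => by rw [pd, (a0 y hy).1.fderiv, (hA _).1]
  have b2 : pd (fun y => (J y).1.1) d2 =ᶠ[𝓝 y] fun y => (J y).1.2.2 :=
    (hU.eventually_mem hy).mono fun y hy => by rw [pd, (a0 y hy).1.fderiv, (hA _).2]
  refine ⟨(contDiffAt_succ_iff_hasFDerivAt (n := 1)).2 ⟨fun y => A (J y).1.2,
    ⟨U, hU.mem_nhds hy, fun y hy => (a0 y hy).1⟩,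
    A.contDiff.contDiffAt.comp y ((a1 y hy).2.prodMk (a2 y hy).2)⟩, ?_⟩
  rw [cj, pd_congr b1, pd_congr b1, pd_congr b2, b1.self_of_nhds, b2.self_of_nhds, pd, pd, pd,
    (a1 y hy).1.fderiv, (a2 y hy).1.fderiv, (hA _).1, (hA _).2, (hA _).2]

end lim

/-- **The derivative of the limit family in the parameters is of class `C²`**, and its jet is the
derivative of the jet. -/
theorem HF.deriv (h : HF c d1 d2 U g gb) (hB : IsBas d1 d2) (hU : IsOpen U) (b : Pt ι τ) {y : D}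
    (hy : y ∈ U) : ContDiffAt ℝ 2 (fun y => fderiv ℂ (fun z => gb z y) 0 b) y ∧
      cj d1 d2 (fun y => fderiv ℂ (fun z => gb z y) 0 b) y
        = fderiv ℂ (fun z => cj d1 d2 (gb z) y) 0 b := by
  obtain ⟨B, b0, hb⟩ := h.hb.bdb'
  have hr := c.r_pos
  have h0 := mem_ball_self (x := (0 : Pt ι τ)) hr
  have t1 : Tendsto (fun t : ℝ => (t : ℂ) • b) (𝓝[>] 0) (𝓝 0) :=
    (((Complex.continuous_ofReal.smul continuous_const).tendsto' 0 0 (by simp))).mono_left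
      nhdsWithin_le_nhds
  have e1 := t1.eventually (ball_mem_nhds _ hr)
  have k := hB.lim2 (l := 𝓝[>] (0 : ℝ))
    (f := fun t y => (t : ℂ)⁻¹ • (gb ((t : ℂ) • b) y + (-1 : ℂ) • gb 0 y))
    (J := fun y => fderiv ℂ (fun z => cj d1 d2 (gb z) y) 0 b) hU
    (e1.mono fun t ht y hy => ((h.cdb _ ht y hy).add ((h.cdb 0 h0 y hy).const_smul _)).const_smul _)
    (Metric.tendstoUniformlyOn_iff.2 fun ε hε => ?_) hy
  · have e : (fun y => fderiv ℂ (fun z => gb z y) 0 b) =ᶠ[𝓝 y]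
        fun y => (fderiv ℂ (fun z => cj d1 d2 (gb z) y) 0 b).1.1 :=
      (hU.eventually_mem hy).mono fun y hy =>
        congrArg (· b) (h.hb.hasFDerivAt hy).fst.fst.fderiv
    exact ⟨k.1.congr_of_eventuallyEq e, (cj_congr e).trans k.2⟩
  have t2 : Tendsto (fun t : ℝ => 3 * B * (‖b‖ / c.r) ^ 2 * t) (𝓝[>] 0) (𝓝 0) :=
    ((continuous_const.mul continuous_id).tendsto' 0 0 (by simp)).mono_left nhdsWithin_le_nhds
  filter_upwards [e1, self_mem_nhdsWithin, t2.eventually_lt_const hε] with t ht t0 h1 y hy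
  have t0' : 0 < t := t0
  have a := (h.cdb 0 h0 y hy).const_smul (-1 : ℂ)
  have k2 := taylor_two (x := 0) (h := (t : ℂ) • b) (h.hb.holob y hy) (fun u hu => hb u hu y hy)
    (mem_ball_zero_iff.1 ht)
  rw [cj_csmul _ ((h.cdb _ ht y hy).add a), cj_add (h.cdb _ ht y hy) a,
    cj_csmul _ (h.cdb 0 h0 y hy), dist_comm, dist_eq_norm]
  rw [zero_add, map_smul, norm_smul, Complex.norm_real, Real.norm_of_nonneg t0'.le] at k2
  refine lt_of_le_of_lt (le_of_mul_le_mul_left ?_ t0') h1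
  refine le_trans (le_of_eq ?_) (k2.trans (le_of_eq (by ring)))
  have k3 : ∀ v : J2 G, t * ‖v‖ = ‖(t : ℂ) • v‖ := fun v => by
    rw [norm_smul, Complex.norm_real, Real.norm_of_nonneg t0'.le]
  rw [k3, smul_sub, smul_inv_smul₀ (Complex.ofReal_ne_zero.2 t0'.ne'), neg_one_smul, sub_eq_add_neg
      (cj d1 d2 (gb _) y)]

theorem HG.deriv (h : HG c d1 d2 y0 g gb) (hB : IsBas d1 d2) (b : Pt ι τ) :
    ContDiffAt ℝ 2 (fun y => fderiv ℂ (fun z => gb z y) 0 b) y0 ∧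
      cj d1 d2 (fun y => fderiv ℂ (fun z => gb z y) 0 b) y0
        = fderiv ℂ (fun z => cj d1 d2 (gb z) y0) 0 b := by
  obtain ⟨c', -, U, hU, ho, h1⟩ := h.exists_hf
  exact h1.deriv hB ho b (mem_of_mem_nhds hU)

/-- the normalisation of jets as a linear map -/
noncomputable def njL (G : Type) [NormedAddCommGroup G] [NormedSpace ℂ G] (l : ℝ) :
    J2 G →L[ℂ] J2 G :=
  ((ContinuousLinearMap.id ℂ G).prodMap (((l : ℂ) • ContinuousLinearMap.id ℂ G).prodMap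
    (ContinuousLinearMap.id ℂ G))).prodMap ((((l : ℂ) ^ 2 • ContinuousLinearMap.id ℂ G)).prodMap
      (((l : ℂ) • ContinuousLinearMap.id ℂ G).prodMap (ContinuousLinearMap.id ℂ G)))

lemma njL_apply (l : ℝ) (j : J2 G) : njL G l j = nj l j := rfl

lemma nj_nj {l : ℝ} (hl : l ≠ 0) (j : J2 G) : nj l⁻¹ (nj l j) = j := by
  have := Complex.ofReal_ne_zero.2 hl
  simp only [nj, smul_smul, Complex.ofReal_inv, ← mul_pow, inv_mul_cancel₀ this, one_pow, one_smul]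

lemma norm_nj_le {l M : ℝ} (hM : 1 ≤ M) (hl : |l| ≤ M) (j : J2 G) : ‖nj l j‖ ≤ M ^ 2 * ‖j‖ := by
  have k : ∀ (a : ℝ) (v : G), |a| ≤ M ^ 2 → ‖v‖ ≤ ‖j‖ → ‖(a : ℂ) • v‖ ≤ M ^ 2 * ‖j‖ :=
    fun a v h1 h2 => by
      rw [norm_smul, Complex.norm_real]
      exact mul_le_mul h1 h2 (norm_nonneg _) (by positivity)
  have k1 : ∀ v : G, ‖v‖ ≤ ‖j‖ → ‖v‖ ≤ M ^ 2 * ‖j‖ := fun v h =>
    h.trans (le_mul_of_one_le_left (norm_nonneg _) (one_le_pow₀ hM))
  have h2 : |l| ≤ M ^ 2 := by nlinarith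
  have h3 : |l ^ 2| ≤ M ^ 2 := by rw [abs_pow]; gcongr
  have a1 := norm_fst_le j
  have a2 := norm_snd_le j
  have a3 := (norm_snd_le j.1).trans a1
  have a4 := (norm_snd_le j.2).trans a2
  have a5 := k _ _ h3 ((norm_fst_le j.2).trans a2)
  rw [Complex.ofReal_pow] at a5
  exact max_le (max_le (k1 _ ((norm_fst_le j.1).trans a1)) (max_le
    (k _ _ h2 ((norm_fst_le j.1.2).trans a3)) (k1 _ ((norm_snd_le j.1.2).trans a3)))) (max_le a5
      (max_le (k _ _ h2 ((norm_fst_le j.2.2).trans a4)) (k1 _ ((norm_snd_le j.2.2).trans a4))))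

lemma norm_njL_le {l M : ℝ} (hM : 1 ≤ M) (hl : |l| ≤ M) : ‖njL G l‖ ≤ M ^ 2 :=
  ContinuousLinearMap.opNorm_le_bound _ (by positivity) (norm_nj_le hM hl)

/-- normalised jets control jets -/
theorem HN.hf {s : ℝ} {g : (ι → ℝ) → Pt ι τ → ℝ × ℝ → G} {gb : Pt ι τ → ℝ × ℝ → G}
    (h : HN c s g gb) (hs : 1 ≤ s) : HF c (1, 0) (0, 1) {p : ℝ × ℝ | s < p.1} g gb := by
  have k : ∀ p ∈ {p : ℝ × ℝ | s < p.1}, p.1 ≠ 0 ∧ ‖njL G p.1⁻¹‖ ≤ 1 ^ 2 := fun p hp => by
    have : 1 ≤ p.1 := hs.trans (le_of_lt hp)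
    exact ⟨by positivity, norm_njL_le le_rfl (by
      rw [abs_of_pos (by positivity)]; exact inv_le_one_of_one_le₀ this)⟩
  refine ⟨h.cd, h.cdb, (h.hb.map fun p hp => (k p hp).2).congr
    (fun W z _ p hp => (nj_nj (k p hp).1 _).symm) fun z _ p hp => (nj_nj (k p hp).1 _).symm,
    (((h.lp.clm (ContinuousLinearMap.inl ℂ _ (T3 G))).map fun p hp => (k p hp).2).clm
      (ContinuousLinearMap.fst ℂ _ _)).congr fun W z _ p hp => ?_⟩
  exact (congrArg Prod.fst (nj_nj (k p hp).1 (cj (1, 0) (0, 1) (g W z) p))).symm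

end Vale.Agent.P218HB
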