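import Vale.Agent.P218HB.Defs
import Vale.Agent.P218LB.Book
import Vale.Agent.P218CO.Holo

/-! # The domains, and the calculus of holomorphic families -/

open Set Filter Topology Metric

set_option linter.unusedSectionVars false

namespace Vale.Agent.P218HB

open Vale.Agent.P218SQ (Pt Adm ofReal lev endDom)
open Vale.Agent.P218LB (lvl)
open Vale.Agent.P218CO

variable {ι τ : Type} [Fintype ι] [Fintype τ]

lemma norm_cpx {σ : Type} [Fintype σ] (x : σ → ℝ) : ‖fun j => (x j : ℂ)‖ = ‖x‖ := by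
  simp [Pi.norm_def]

lemma norm_ofReal (x : (ι → ℝ) × (τ → ℝ)) : ‖ofReal x‖ = ‖x‖ := by
  simp only [Prod.norm_def, ofReal, norm_cpx]

/-- the inclusion of the real parameters -/
noncomputable def ofL (ι τ : Type) [Fintype ι] [Fintype τ] : (ι → ℝ) × (τ → ℝ) →L[ℝ] Pt ι τ :=
  (ContinuousLinearMap.pi fun j => Complex.ofRealCLM.comp (ContinuousLinearMap.proj j)).prodMap
    (ContinuousLinearMap.pi fun j => Complex.ofRealCLM.comp (ContinuousLinearMap.proj j))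

lemma ofL_apply (x : (ι → ℝ) × (τ → ℝ)) : ofL ι τ x = ofReal x := rfl

lemma ofReal_zero : ofReal (0 : (ι → ℝ) × (τ → ℝ)) = 0 := map_zero (ofL ι τ)

lemma ofReal_injective : Function.Injective (ofReal : (ι → ℝ) × (τ → ℝ) → Pt ι τ) :=
  (injective_iff_map_eq_zero (ofL ι τ)).2 fun x hx => by
    rw [← norm_eq_zero, ← norm_ofReal, ← ofL_apply, hx, norm_zero]

namespace Cst

variable {c c' c'' : Cst} {W : ι → ℝ} {z : Pt ι τ} {v : ℝ}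

lemma ge (c : Cst) (h : c.w1 ≤ v) : 64 ≤ v := (c.big v h).1

lemma w1_ge (c : Cst) : 64 ≤ c.w1 := c.ge le_rfl

lemma le_lev (c : Cst) (h : c.w1 ≤ v) : v ≤ lev 1 c.K v := by
  have := (c.big v h).log_nonneg
  unfold lev
  linarith [c.one_le]

lemma lev_le (c : Cst) (h : c.w1 ≤ v) : lev 1 c.K v ≤ 65 / 64 * v := by
  have h1 := (c.big v h).log_nonneg
  have h2 := (c.big v h).2
  unfold lev
  nlinarith [c.one_le]

lemma isOpen_dom (c : Cst) (W : ι → ℝ) : IsOpen (c.dom W : Set (Pt ι τ)) := by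
  have h : ∀ v, IsOpen (endDom 1 c.K v) := fun v => by
    have h1 : IsOpen {a : ℂ | ‖a‖ * lev 1 c.K v < 1} := isOpen_lt (by fun_prop) continuous_const
    have h2 : IsOpen {a : ℂ | 2 * a.re < -‖a‖} := isOpen_lt (by fun_prop) (by fun_prop)
    have h3 : IsOpen {a : ℂ | ‖a‖ * v < 5 / 4} := isOpen_lt (by fun_prop) continuous_const
    exact h1.union (h2.inter h3)
  have e : (c.dom W : Set (Pt ι τ)) =
      (⋂ j, (fun z => z.1 j) ⁻¹' endDom 1 c.K (W j)) ∩ {z | ‖z.2‖ < c.r} := by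
    ext z; simp [dom, P218SQ.dom]
  rw [e]
  exact (isOpen_iInter_of_finite fun j => (h _).preimage (by fun_prop)).inter
    (isOpen_lt (by fun_prop) continuous_const)

lemma Ok.pos (h : c.Ok W z) (j : ι) : 0 < W j := by linarith [c.ge (h.1 j).1]

lemma Ok.fst_lt (h : c.Ok W z) (j : ι) : ‖z.1 j‖ * W j < 5 / 4 := by
  rcases h.2.1 j with h1 | h1
  · linarith [mul_le_mul_of_nonneg_left (c.le_lev (h.1 j).1) (norm_nonneg (z.1 j))]
  · exact h1.2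

lemma Ok.mem_ball (h : c.Ok W z) : z ∈ ball (0 : Pt ι τ) c.r := by
  rw [mem_ball_zero_iff, Prod.norm_def]
  refine max_lt ((pi_norm_lt_iff c.r_pos).2 fun j => ?_) h.2.2
  have h1 := h.fst_lt j
  have h2 := mul_le_mul_of_nonneg_left (h.1 j).1 c.r_pos.le
  refine lt_of_mul_lt_mul_right ?_ (h.pos j).le
  linarith [c.sub]

lemma dom_subset (hW : Adm c.w1 W) : (c.dom W : Set (Pt ι τ)) ⊆ ball 0 c.r :=
  fun _ hz => Ok.mem_ball ⟨hW, hz⟩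

lemma ok_of (hW : Adm c.w1 W) (h1 : ∀ j, ‖z.1 j‖ * W j ≤ 3 / 4) (h2 : ‖z.2‖ < c.r) :
    c.Ok W z := by
  refine ⟨hW, fun j => Or.inl ?_, h2⟩
  linarith [mul_le_mul_of_nonneg_left (c.lev_le (hW j).1) (norm_nonneg (z.1 j)), h1 j]

lemma ok_zero (hW : Adm c.w1 W) : c.Ok W (0 : Pt ι τ) :=
  ok_of hW (fun j => by simp; norm_num) (by simpa using c.r_pos)

lemma adm_const (c : Cst) (h : c.w1 ≤ v) : Adm c.w1 fun _ : ι => v :=
  fun _ => ⟨h, fun _ => by linarith [c.ge h]⟩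

lemma Ok.nhds (h : c.Ok W z) : ∀ᶠ z' in 𝓝 z, c.Ok W z' :=
  (show ∀ᶠ z' in 𝓝 z, z' ∈ c.dom W from (c.isOpen_dom W).mem_nhds h.2).mono fun _ h' => ⟨h.1, h'⟩

lemma Le.rfl : c.Le c := ⟨_root_.rfl, _root_.rfl, le_rfl, le_rfl⟩

lemma Le.trans (h : c''.Le c') (h' : c'.Le c) : c''.Le c :=
  ⟨h.K.trans h'.K, h.k.trans h'.k, h.r.trans h'.r, h'.w1.trans h.w1⟩

lemma Le.adm (h : c'.Le c) (hW : Adm c'.w1 W) : Adm c.w1 W :=
  fun i => ⟨h.w1.trans (hW i).1, (hW i).2⟩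

lemma Le.dom (h : c'.Le c) (W : ι → ℝ) : (c'.dom W : Set (Pt ι τ)) ⊆ c.dom W :=
  fun _ hz => ⟨h.K ▸ hz.1, hz.2.trans_le h.r⟩

lemma Le.ok (h : c'.Le c) (hz : c'.Ok W z) : c.Ok W z := ⟨h.adm hz.1, h.dom W hz.2⟩

lemma Le.ball (h : c'.Le c) : ball (0 : Pt ι τ) c'.r ⊆ ball 0 c.r := ball_subset_ball h.r

lemma exists_le (c : Cst) {ρ : ℝ} (hρ : 0 < ρ) (v : ℝ) :
    ∃ c' : Cst, c'.Le c ∧ c'.r ≤ ρ ∧ v ≤ c'.w1 := by
  have h : 0 < min c.r ρ := lt_min c.r_pos hρ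
  refine ⟨⟨c.K, min c.r ρ, max (max c.w1 v) (2 / min c.r ρ), c.k, c.one_le, h, c.k_pos,
    fun u hu => c.big u ((le_max_left _ _).trans ((le_max_left _ _).trans hu)), ?_⟩,
    ⟨rfl, rfl, min_le_left _ _, (le_max_left _ _).trans (le_max_left _ _)⟩, min_le_right _ _,
    (le_max_right _ _).trans (le_max_left _ _)⟩
  exact (div_le_iff₀' h).1 (le_max_right _ _)

/-- the filter of small domains -/
def sm (c : Cst) : Filter Cst where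
  sets := {A | ∃ c0 : Cst, c0.Le c ∧ ∀ c' : Cst, c'.Le c0 → c' ∈ A}
  univ_sets := ⟨c, Le.rfl, fun _ _ => mem_univ _⟩
  sets_of_superset := fun ⟨c0, h0, h1⟩ hs => ⟨c0, h0, fun c' h => hs (h1 c' h)⟩
  inter_sets := fun ⟨c0, h0, h1⟩ ⟨c1, k0, k1⟩ => by
    obtain ⟨c2, l1, l2, l3⟩ := c0.exists_le c1.r_pos c1.w1
    exact ⟨c2, l1.trans h0, fun c' h => ⟨h1 c' (h.trans l1), k1 c' (h.trans
      ⟨l1.K.trans (h0.K.trans k0.K.symm), l1.k.trans (h0.k.trans k0.k.symm), l2, l3⟩)⟩⟩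

lemma ev_iff {P : Cst → Prop} :
    (∀ᶠ c' in c.sm, P c') ↔ ∃ c0 : Cst, c0.Le c ∧ ∀ c' : Cst, c'.Le c0 → P c' := Iff.rfl

lemma Le.ev (h : c'.Le c) : ∀ᶠ c'' in c.sm, c''.Le c' := ⟨c', h, fun _ h => h⟩

lemma ev_le (c : Cst) : ∀ᶠ c' in c.sm, c'.Le c := Le.rfl.ev

instance (c : Cst) : c.sm.NeBot := ⟨fun h => by
  obtain ⟨c0, -, h1⟩ : ∅ ∈ c.sm := h ▸ mem_bot
  exact h1 c0 Le.rfl⟩

lemma Le.sm (h : c'.Le c) : c'.sm = c.sm := by
  ext A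
  refine ⟨fun ⟨c0, h0, h1⟩ => ⟨c0, h0.trans h, h1⟩, fun hA => ?_⟩
  obtain ⟨c0, -, h1⟩ := inter_mem hA h.ev
  exact ⟨c0, (h1 c0 Le.rfl).2, fun c'' h'' => (h1 c'' h'').1⟩

lemma ev_r (c : Cst) {ρ : ℝ} (hρ : 0 < ρ) : ∀ᶠ c' in c.sm, c'.r ≤ ρ := by
  obtain ⟨c0, h1, h2, -⟩ := c.exists_le hρ 0
  exact h1.ev.mono fun _ h => h.r.trans h2

lemma ev_w1 (c : Cst) (v : ℝ) : ∀ᶠ c' in c.sm, v ≤ c'.w1 := by
  obtain ⟨c0, h1, -, h2⟩ := c.exists_le one_pos v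
  exact h1.ev.mono fun _ h => h2.trans h.w1

lemma exists_of_ev {P : Cst → Prop} (h : ∀ᶠ c' in c.sm, P c') : ∃ c' : Cst, c'.Le c ∧ P c' :=
  (c.ev_le.and h).exists

lemma norm_fst_lvl (n : ℕ) (a : (ι → ℝ) × (τ → ℝ)) (j : ι) :
    ‖(ofReal a).1 j‖ * lvl n a ≤ 1 / 2 := by
  refine le_trans (mul_le_mul_of_nonneg_right ?_ (P218LB.lvl_pos n a).le) (P218LB.norm_mul_lvl n a)
  simpa [ofReal] using norm_le_pi_norm a.1 j

lemma ev_norm {ρ : ℝ} (hρ : 0 < ρ) :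
    ∀ᶠ q : ℕ × (ι → ℝ) × (τ → ℝ) in atTop ×ˢ 𝓝 0, ‖q.2‖ < ρ :=
  tendsto_snd.eventually (p := fun x => ‖x‖ < ρ)
    ((continuous_norm.tendsto' (0 : (ι → ℝ) × (τ → ℝ)) 0 norm_zero).eventually_lt_const hρ)

/-- the real family lies in all the domains -/
lemma ev_ok (c : Cst) : ∀ᶠ q : ℕ × (ι → ℝ) × (τ → ℝ) in atTop ×ˢ 𝓝 0,
    c.Ok (fun _ => lvl q.1 q.2) (ofReal q.2) := by
  filter_upwards [P218LB.tendsto_lvl.eventually_ge_atTop c.w1, ev_norm c.r_pos] with q h1 h2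
  exact ok_of (c.adm_const h1) (fun j => (norm_fst_lvl _ _ j).trans (by norm_num))
    ((norm_snd_le _).trans_lt (by rwa [norm_ofReal]))

lemma rate_nonneg (h : Adm c.w1 W) : 0 ≤ ∑ i, W i ^ (-1 - c.k) :=
  Finset.sum_nonneg fun i _ => Real.rpow_nonneg (by linarith [c.ge (h i).1]) _

lemma rate_le (c : Cst) (hv : 0 < v) (h : ∀ i, v ≤ W i) :
    ∑ i, W i ^ (-1 - c.k) ≤ Fintype.card ι * v ^ (-1 - c.k) := by
  have := Finset.sum_le_card_nsmul Finset.univ (fun i => W i ^ (-1 - c.k)) (v ^ (-1 - c.k))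
    fun i _ => Real.rpow_le_rpow_of_nonpos hv (h i) (by linarith [c.k_pos])
  simpa using this

lemma ev_rate (c : Cst) (C : ℝ) {ε : ℝ} (hε : 0 < ε) : ∀ᶠ c' in c.sm, ∀ W : ι → ℝ,
    Adm c'.w1 W → C * ∑ i, W i ^ (-1 - c.k) ≤ ε := by
  have h : Tendsto (fun v : ℝ => |C| * (Fintype.card ι * v ^ (-(1 + c.k)))) atTop (𝓝 0) := by
    simpa using ((tendsto_rpow_neg_atTop (by linarith [c.k_pos] : 0 < 1 + c.k)).const_mul
      (Fintype.card ι : ℝ)).const_mul |C|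
  obtain ⟨v, hv⟩ := ((h.eventually_le_const hε).and (eventually_gt_atTop 0)).exists
  filter_upwards [c.ev_w1 v, c.ev_le] with c' h1 h2 W hW
  have h3 := c.rate_le hv.2 fun i => h1.trans (hW i).1
  have h4 := rate_nonneg (h2.adm hW)
  rw [show -(1 + c.k) = -1 - c.k by ring] at hv
  calc _ ≤ |C| * ∑ i, W i ^ (-1 - c.k) := by gcongr; exact le_abs_self C
    _ ≤ _ := (mul_le_mul_of_nonneg_left h3 (abs_nonneg C)).trans hv.1

end Cst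

end Vale.Agent.P218HB
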