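import Vale.Agent.P218HB.Rep
import Vale.Agent.P218VA.Man
import Mathlib.Analysis.Calculus.InverseFunctionTheorem.ContDiff

/-! # Holomorphic families of functions on a surface -/

open Set Filter Topology Metric

set_option linter.unusedSectionVars false

namespace Vale.Agent.P218HB

open Vale.Agent.P218SQ (Pt Adm ofReal)
open Vale.Agent.P218CO Vale.Agent.P218VA Vale.Agent.P272.K.LIN

/-- a statement which holds locally on small domains holds on compact sets -/
lemma Cst.ev_compact {D : Type} [TopologicalSpace D] {c : Cst} {K : Set D} (hK : IsCompact K)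
    {P : Cst → D → Prop} (h : ∀ x ∈ K, ∀ᶠ c' in c.sm, ∀ᶠ y in 𝓝 x, P c' y)
    (hP : ∀ c' c'' y, c''.Le c' → P c' y → P c'' y) : ∀ᶠ c' in c.sm, ∀ x ∈ K, P c' x := by
  have h1 : {q : Cst × D | P q.1 q.2} ∈ c.sm ×ˢ 𝓝ˢ K := hK.mem_prod_nhdsSet_of_forall fun x hx => by
    obtain ⟨c', h1, h2⟩ := Cst.exists_of_ev (h x hx)
    exact mem_of_superset (prod_mem_prod h1.ev h2) fun q hq => hP _ _ _ hq.1 hq.2
  exact (Eventually.curry h1).mono fun c' h2 x hx => h2.self_of_nhdsSet x hx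

lemma exists_local_inverse {T : ℝ × ℝ → E2} {y : ℝ × ℝ} (hT : ContDiffAt ℝ 2 T y)
    (hj : jac (1, 0) (0, 1) T y ≠ 0) : ∃ S : E2 → ℝ × ℝ, ContDiffAt ℝ 2 S (T y) ∧ S (T y) = y ∧
      (∀ᶠ v in 𝓝 (T y), T (S v) = v) ∧ ∀ᶠ v in 𝓝 y, S (T v) = v := by
  have h1 : Function.Injective (fderiv ℝ T y) := (injective_iff_map_eq_zero _).2 fun v hv => by
    have h2 : v = v.1 • ((1, 0) : ℝ × ℝ) + v.2 • (0, 1) := by simp
    rw [h2, map_add, map_smul, map_smul] at hv
    have a := congrArg (· 0) hv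
    have b := congrArg (· 1) hv
    simp only [PiLp.add_apply, PiLp.smul_apply, smul_eq_mul, PiLp.zero_apply] at a b
    unfold jac pd at hj
    refine Prod.ext (mul_left_cancel₀ hj ?_) (mul_left_cancel₀ hj ?_)
    · simp only [Prod.fst_zero]
      linear_combination fderiv ℝ T y (0, 1) 1 * a - fderiv ℝ T y (0, 1) 0 * b
    · simp only [Prod.snd_zero]
      linear_combination fderiv ℝ T y (1, 0) 0 * b - fderiv ℝ T y (1, 0) 1 * a
  let A : (ℝ × ℝ) ≃L[ℝ] E2 := (LinearMap.linearEquivOfInjective (fderiv ℝ T y : ℝ × ℝ →ₗ[ℝ] E2) h1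
    (by simp)).toContinuousLinearEquiv
  have h3 : HasFDerivAt T (A : ℝ × ℝ →L[ℝ] E2) y := (hT.differentiableAt (by simp)).hasFDerivAt
  exact ⟨hT.localInverse h3 (by simp), hT.to_localInverse h3 _, hT.localInverse_apply_image h3 _,
    (hT.hasStrictFDerivAt' h3 (by simp)).eventually_right_inverse,
    (hT.hasStrictFDerivAt' h3 (by simp)).eventually_left_inverse⟩

variable {ι τ : Type} [Fintype ι] [Fintype τ] {M G G' : Type} [TopologicalSpace M]
  [ChartedSpace E2 M] [NormedAddCommGroup G] [NormedSpace ℂ G] [NormedAddCommGroup G']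
  [NormedSpace ℂ G'] {c c' : Cst} {x : M} {g g₁ : (ι → ℝ) → Pt ι τ → M → G}
  {gb gb₁ : Pt ι τ → M → G} {g' : (ι → ℝ) → Pt ι τ → M → G'} {gb' : Pt ι τ → M → G'}
  {e : OpenPartialHomeomorph M E2}

/-- `HG` at `x` in all charts -/
def HM (c : Cst) (x : M) (g : (ι → ℝ) → Pt ι τ → M → G) (gb : Pt ι τ → M → G) : Prop :=
  ∀ e ∈ atlas E2 M, x ∈ e.source →
    HG c u1 u2 (e x) (fun W z => cX e (g W z)) fun z => cX e (gb z)

namespace HM

lemma of_le (h : HM c' x g gb) (hc : c'.Le c) : HM c x g gb := fun e he hx => (h e he hx).of_le hc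

lemma mono (h : HM c x g gb) (hc : c'.Le c) : HM c' x g gb := fun e he hx => (h e he hx).mono hc

lemma ckAt (h : HM c x g gb) : CkAt 2 (gb 0) x := fun e he hx => (h e he hx).cdb

lemma congr (h : HM c x g gb)
    (e : ∀ᶠ c' in c.sm, ∀ᶠ y in 𝓝 x, ∀ W z, c'.Ok W z → g₁ W z y = g W z y)
    (eb : ∀ᶠ c' in c.sm, ∀ᶠ y in 𝓝 x, ∀ z ∈ ball (0 : Pt ι τ) c'.r, gb₁ z y = gb z y) :
    HM c x g₁ gb₁ := fun e' he hx => (h e' he hx).congr
  (e.mono fun _ h1 => (tendsto_symm hx).eventually h1)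
  (eb.mono fun _ h1 => (tendsto_symm hx).eventually h1)

lemma const {k : M → G} (hk : CkAt 2 k x) :
    HM c x (fun (_ : ι → ℝ) (_ : Pt ι τ) => k) fun _ => k := fun e he hx => HG.const (hk e he hx)

lemma param {E : Type} {V : Set E} {p : (ι → ℝ) → Pt ι τ → E → G} {pb : Pt ι τ → E → G}
    (h : HB c V p pb) (hl : Lp c V p) {a : E} (ha : a ∈ V) :
    HM c x (fun W z _ => p W z a) fun z _ => pb z a := fun _ _ _ => HG.param h hl ha

lemma prod (h : HM c x g gb) (h' : HM c x g' gb') :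
    HM c x (fun W z y => (g W z y, g' W z y)) fun z y => (gb z y, gb' z y) :=
  fun e he hx => (h e he hx).prod (h' e he hx)

lemma clm (h : HM c x g gb) (A : G →L[ℂ] G') :
    HM c x (fun W z y => A (g W z y)) fun z y => A (gb z y) := fun e he hx => (h e he hx).clm A

theorem comp (h : HM c x g gb) {Θ : G → G'} (hΘ : ContDiffAt ℂ 3 Θ (gb 0 x)) :
    HM c x (fun W z y => Θ (g W z y)) fun z y => Θ (gb z y) := fun e he hx =>
  (h e he hx).comp (by simpa only [cX, e.left_inv hx] using hΘ)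

theorem comp₂ {K : Type} [NormedAddCommGroup K] [NormedSpace ℂ K] {k : M → K}
    (h : HM c x g gb) (hk : CkAt 2 k x) {Θ : K × G → G'} (hΘ : ContDiffAt ℂ 3 Θ (k x, gb 0 x)) :
    HM c x (fun W z y => Θ (k y, g W z y)) fun z y => Θ (k y, gb z y) :=
  ((const hk).prod h).comp hΘ

/-- the family in a parametrisation -/
theorem pull {D : Type} [NormedAddCommGroup D] [NormedSpace ℝ D] {d1 d2 y : D} {T : D → E2}
    (he : e ∈ atlas E2 M) (hy : T y ∈ e.target) (h : HM c (e.symm (T y)) g gb)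
    (hT : ContDiffAt ℝ 2 T y) :
    HG c d1 d2 y (fun W z y => g W z (e.symm (T y))) fun z y => gb z (e.symm (T y)) := by
  have := h e he (e.map_target hy)
  rw [e.right_inv hy] at this
  exact this.rep isBas_E2 hT

/-- the derivative in the parameters is of class `C²` -/
theorem deriv (h : HM c x g gb) (b : Pt ι τ) :
    CkAt 2 (fun y => fderiv ℂ (fun z => gb z y) 0 b) x ∧ ∀ e ∈ atlas E2 M, x ∈ e.source →
      cj u1 u2 (cX e fun y => fderiv ℂ (fun z => gb z y) 0 b) (e x)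
        = fderiv ℂ (fun z => cj u1 u2 (cX e (gb z)) (e x)) 0 b :=
  ⟨fun e he hx => ((h e he hx).deriv isBas_E2 b).1, fun e he hx => ((h e he hx).deriv isBas_E2 b).2⟩

/-- the values form a holomorphic family near `x` -/
theorem hb (h : HM c x g gb) : ∀ᶠ c' in c.sm, ∃ U ∈ 𝓝 x, HB c' U g gb ∧ Lp c' U g ∧
    ∀ W z, c'.Ok W z → ∀ y ∈ U, ContDiffAt ℝ 2 (cX (chartAt E2 x) (g W z)) (chartAt E2 x y) := by
  have hx := mem_chart_source E2 x
  filter_upwards [h _ (chart_mem_atlas E2 x) hx] with c' ⟨U, hU, h1⟩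
  have hm : MapsTo (chartAt E2 x) ((chartAt E2 x).source ∩ chartAt E2 x ⁻¹' U) U := fun _ hy => hy.2
  refine ⟨_, inter_mem ((chartAt E2 x).open_source.mem_nhds hx) ((chartAt E2 x).continuousAt hx hU),
    (h1.hb0.pre hm).congr (fun W z _ y hy => ?_) fun z _ y hy => ?_,
    (h1.lp0.pre hm).congr fun W z _ y hy => ?_, fun W z hz y hy => h1.cd W z hz _ hy.2⟩
  all_goals simp only [cX, (chartAt E2 x).left_inv hy.1]

variable [RSm E2 M]

theorem of_chart (he : e ∈ atlas E2 M) (hx : x ∈ e.source)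
    (h : HG c u1 u2 (e x) (fun W z => cX e (g W z)) fun z => cX e (gb z)) : HM c x g gb := by
  intro e' he' hx'
  have h1 : HG c u1 u2 ((fun y => e (e'.symm y)) (e' x)) (fun W z => cX e (g W z))
      fun z => cX e (gb z) := by simpa only [e'.left_inv hx'] using h
  have h2 : ∀ᶠ y in 𝓝 (e' x), e.symm (e (e'.symm y)) = e'.symm y :=
    (symm_trans_eq hx hx').mono fun y hy => e.left_inv hy.1
  exact (HG.rep (T := fun y => e (e'.symm y)) h1 isBas_E2 (trans_smooth he he' hx hx')).congr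
    (.of_forall fun _ => h2.mono fun y hy W z _ => by simp only [cX, hy])
    (.of_forall fun _ => h2.mono fun y hy z _ => by simp only [cX, hy])

lemma nhds (h : HM c x g gb) : ∀ᶠ y in 𝓝 x, HM c y g gb := by
  have hx := mem_chart_source E2 x
  filter_upwards [(chartAt E2 x).continuousAt hx (h _ (chart_mem_atlas E2 x) hx).nhds,
    (chartAt E2 x).open_source.mem_nhds hx] with y h1 h2
  exact of_chart (chart_mem_atlas E2 x) h2 h1

theorem of_param {T : ℝ × ℝ → E2} {y : ℝ × ℝ} (he : e ∈ atlas E2 M) (hy : T y ∈ e.target)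
    (hT : ContDiffAt ℝ 2 T y) (hj : jac (1, 0) (0, 1) T y ≠ 0)
    (h : HG c (1, 0) (0, 1) y (fun W z y => g W z (e.symm (T y))) fun z y => gb z (e.symm (T y))) :
    HM c (e.symm (T y)) g gb := by
  obtain ⟨S, h1, h2, h3, -⟩ := exists_local_inverse hT hj
  refine of_chart he (e.map_target hy) ?_
  rw [e.right_inv hy]
  rw [← h2] at h
  exact (h.rep isBas_prod h1).congr
    (.of_forall fun _ => h3.mono fun y hy W z _ => by simp only [cX, hy])
    (.of_forall fun _ => h3.mono fun y hy z _ => by simp only [cX, hy])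

theorem exists_of_param {T : ℝ × ℝ → E2} {y : ℝ × ℝ} (he : e ∈ atlas E2 M) (hy : T y ∈ e.target)
    (hT : ContDiffAt ℝ 2 T y) (hj : jac (1, 0) (0, 1) T y ≠ 0) {gp : Pt ι τ → ℝ × ℝ → G}
    (h : HG c (1, 0) (0, 1) y (fun W z y => g W z (e.symm (T y))) gp) :
    ∃ S : M → ℝ × ℝ, Tendsto S (𝓝 (e.symm (T y))) (𝓝 y) ∧
      (∀ᶠ x in 𝓝 (e.symm (T y)), e.symm (T (S x)) = x) ∧
      HM c (e.symm (T y)) g fun z x => gp z (S x) := by
  obtain ⟨S, h1, h2, h3, h4⟩ := exists_local_inverse hT hj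
  have h5 : Tendsto e (𝓝 (e.symm (T y))) (𝓝 (T y)) := by
    simpa only [e.right_inv hy] using (e.continuousAt (e.map_target hy)).tendsto
  have h6 : ∀ᶠ y' in 𝓝 y, S (e (e.symm (T y'))) = y' := by
    filter_upwards [h4, hT.continuousAt (e.open_target.mem_nhds hy)] with y' a b
    rw [e.right_inv b, a]
  refine ⟨fun x => S (e x), (h2 ▸ h1.continuousAt.tendsto).comp h5, ?_, of_param he hy hT hj
    (h.congr (.of_forall fun _ => .of_forall fun _ _ _ _ => rfl)
    (.of_forall fun _ => h6.mono fun y' hy' z _ => by simp only [hy']))⟩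
  filter_upwards [h5.eventually h3, e.open_source.mem_nhds (e.map_target hy)] with x a b
  rw [a, e.left_inv b]

/-- the families are of class `C²` -/
lemma ev_ckAt (h : HM c x g gb) :
    ∀ᶠ c' in c.sm, ∀ᶠ y in 𝓝 x, ∀ W z, c'.Ok W z → CkAt 2 (g W z) y := by
  filter_upwards [h.hb] with c' ⟨U, hU, _, _, h1⟩
  filter_upwards [hU, (chartAt E2 x).open_source.mem_nhds (mem_chart_source E2 x)]
    with y h2 h3 W z hz
  exact ckAt_of_chart two_le_inf (chart_mem_atlas E2 x) h3 (h1 W z hz y h2)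

end HM

/-- an open condition on the jets of the limit holds for the family -/
theorem HG.ev_jet {D : Type} [NormedAddCommGroup D] [NormedSpace ℝ D] {d1 d2 y0 : D}
    {g : (ι → ℝ) → Pt ι τ → D → G} {gb : Pt ι τ → D → G} (h : HG c d1 d2 y0 g gb)
    {P : D × J2 G → Prop} (hP : ∀ᶠ q in 𝓝 (y0, cj d1 d2 (gb 0) y0), P q) :
    ∀ᶠ c' in c.sm, ∀ᶠ y in 𝓝 y0, (∀ W z, c'.Ok W z → P (y, cj d1 d2 (g W z) y)) ∧
      ∀ z ∈ ball (0 : Pt ι τ) c'.r, P (y, cj d1 d2 (gb z) y) := by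
  have hc := (contDiffAt_cj (d1 := d1) (d2 := d2) (n := 0) (by simpa using h.cdb)).continuousAt
  rw [nhds_prod_eq, eventually_prod_iff] at hP
  obtain ⟨p1, h1, p2, h2, h3⟩ := hP
  obtain ⟨c', h4, U, hU, -, h5⟩ := h.exists_hf
  rw [← h4.sm]
  filter_upwards [h5.hb.comp_loc hc (Θ := id) contDiffAt_id h2] with c'' ⟨V, hV, _, _, a1, a2⟩
  filter_upwards [h1, hU, hV] with y b1 b2 b3
  exact ⟨fun W z hz => h3 b1 (a1 W z hz y ⟨b2, b3⟩), fun z hz => h3 b1 (a2 z hz y ⟨b2, b3⟩)⟩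

end Vale.Agent.P218HB
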