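import Vale.Agent.P218HB.Lin

/-! # The calculus of holomorphic families of functions of class `C²` -/

open Set Filter Topology Metric

set_option linter.unusedSectionVars false

namespace Vale.Agent.P218HB

open Vale.Agent.P218SQ (Pt Adm ofReal)
open Vale.Agent.P218CO
open Vale.Agent.P218VA (pd)

variable {ι τ : Type} [Fintype ι] [Fintype τ] {D D' G G' : Type}
  [NormedAddCommGroup G] [NormedSpace ℂ G] [NormedAddCommGroup G'] [NormedSpace ℂ G']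
  {c c' : Cst} {U U' : Set D} {g g₁ : (ι → ℝ) → Pt ι τ → D → G} {gb gb₁ : Pt ι τ → D → G}
  {g' : (ι → ℝ) → Pt ι τ → D → G'} {gb' : Pt ι τ → D → G'}

/-- the limit family is unique to first order -/
theorem HB.uniq (h : HB c U g gb) (h' : HB c U g gb₁) {y : D} (hy : y ∈ U)
    (b : (ι → ℝ) × (τ → ℝ)) : gb 0 y = gb₁ 0 y ∧
      fderiv ℂ (fun z => gb z y) 0 (ofReal b) = fderiv ℂ (fun z => gb₁ z y) 0 (ofReal b) := by
  have h1 := ((h.prod h').clm (ContinuousLinearMap.fst ℂ G G - ContinuousLinearMap.snd ℂ G G)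
    ).deriv_zero hy (fun W z _ => by simp) b
  have h2 := ((h.hasFDerivAt hy).sub (h'.hasFDerivAt hy)).fderiv
  refine ⟨sub_eq_zero.1 h1.1, sub_eq_zero.1 ?_⟩
  rw [← sub_apply, ← h2]
  exact h1.2

/-- local composition with a holomorphic map -/
theorem HB.comp_loc [TopologicalSpace D] (h : HB c U g gb) {y0 : D}
    (hc : ContinuousAt (gb 0) y0) {Θ : G → G'} (hΘ : ContDiffAt ℂ 1 Θ (gb 0 y0)) {P : G → Prop}
    (hP : ∀ᶠ x in 𝓝 (gb 0 y0), P x) : ∀ᶠ c' in c.sm, ∃ V ∈ 𝓝 y0,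
      HB c' (U ∩ V) (fun W z y => Θ (g W z y)) (fun z y => Θ (gb z y)) ∧
      (Lp c U g → Lp c' (U ∩ V) fun W z y => Θ (g W z y)) ∧
      (∀ W z, c'.Ok W z → ∀ y ∈ U ∩ V, P (g W z y)) ∧
      ∀ z ∈ ball (0 : Pt ι τ) c'.r, ∀ y ∈ U ∩ V, P (gb z y) := by
  obtain ⟨ρ, hρ, h1⟩ := Metric.eventually_nhds_iff_ball.1 (hP.and ((hΘ.eventually (by simp)).and
    (hΘ.continuousAt.norm.eventually_le_const (lt_add_one _))))
  have e : 2 * (ρ / 2) = ρ := by ring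
  have hd : DifferentiableOn ℂ Θ (ball (gb 0 y0) (2 * (ρ / 2))) := fun x hx =>
    ((h1 x (e ▸ hx)).2.1.differentiableAt (by simp)).differentiableWithinAt
  have hM : ∀ x ∈ ball (gb 0 y0) (2 * (ρ / 2)), ‖Θ x‖ ≤ ‖Θ (gb 0 y0)‖ + 1 := fun x hx =>
    (h1 x (e ▸ hx)).2.2
  have hs : ball (gb 0 y0) (ρ / 2) ⊆ ball (gb 0 y0) ρ := ball_subset_ball (by linarith)
  filter_upwards [c.ev_le, h.near (show 0 < ρ / 4 by positivity)] with c' h2 ⟨h3, h4⟩
  have k : ∀ {x y}, ‖x - gb 0 y‖ < ρ / 4 → gb 0 y ∈ ball (gb 0 y0) (ρ / 4) →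
      x ∈ ball (gb 0 y0) (ρ / 2) := fun {x y} a b => by
    rw [mem_ball_iff_norm] at b ⊢
    linarith [norm_sub_le_norm_sub_add_norm_sub x (gb 0 y) (gb 0 y0)]
  have k1 : ∀ W z, c'.Ok W z → ∀ y ∈ U ∩ gb 0 ⁻¹' ball (gb 0 y0) (ρ / 4),
      g W z y ∈ ball (gb 0 y0) (ρ / 2) := fun W z hz y hy => k (h3 W z hz y hy.1) hy.2
  have k2 : ∀ z ∈ ball (0 : Pt ι τ) c'.r, ∀ y ∈ U ∩ gb 0 ⁻¹' ball (gb 0 y0) (ρ / 4),
      gb z y ∈ ball (gb 0 y0) (ρ / 2) := fun z hz y hy => k (h4 z hz y hy.1) hy.2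
  exact ⟨_, hc (ball_mem_nhds _ (by positivity)),
    (h.mono h2 inter_subset_left).comp (half_pos hρ) hd hM k1 k2,
    fun hl => (hl.mono h2 inter_subset_left).comp (half_pos hρ) hd hM k1,
    fun W z hz y hy => (h1 _ (hs (k1 W z hz y hy))).1, fun z hz y hy => (h1 _ (hs (k2 z hz y hy))).1⟩

variable [NormedAddCommGroup D] [NormedSpace ℝ D] [NormedAddCommGroup D'] [NormedSpace ℝ D']
  {d1 d2 y0 : D} {d1' d2' y0' : D'}

/-- the jet of a constant as a linear map -/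
noncomputable def jconstL (G : Type) [NormedAddCommGroup G] [NormedSpace ℂ G] : G →L[ℂ] J2 G :=
  (ContinuousLinearMap.inl ℂ (T3 G) (T3 G)).comp (ContinuousLinearMap.inl ℂ G (G × G))

/-- a complex linear map acts on triples -/
noncomputable def t3C (A : G →L[ℂ] G') : T3 G →L[ℂ] T3 G' := A.prodMap (A.prodMap A)

/-- pairs of triples -/
noncomputable def t3Z (G G' : Type) [NormedAddCommGroup G] [NormedSpace ℂ G] [NormedAddCommGroup G']
    [NormedSpace ℂ G'] : T3 G × T3 G' →L[ℂ] T3 (G × G') :=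
  (t3C (ContinuousLinearMap.inl ℂ G G')).coprod (t3C (ContinuousLinearMap.inr ℂ G G'))

lemma t3Z_apply (a : T3 G) (b : T3 G') :
    t3Z G G' (a, b) = ((a.1, b.1), (a.2.1, b.2.1), (a.2.2, b.2.2)) := by
  simp [t3Z, t3C, Prod.ext_iff]

namespace HF

lemma mono (h : HF c d1 d2 U g gb) (hc : c'.Le c) (hU : U' ⊆ U) : HF c' d1 d2 U' g gb where
  cd W z hz y hy := h.cd W z (hc.ok hz) y (hU hy)
  cdb z hz y hy := h.cdb z (hc.ball hz) y (hU hy)
  hb := h.hb.mono hc hU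
  lp := h.lp.mono hc hU

lemma congr (h : HF c d1 d2 U g gb) (e : ∀ W z, c.Ok W z → ∀ y ∈ U, g₁ W z =ᶠ[𝓝 y] g W z)
    (eb : ∀ z ∈ ball (0 : Pt ι τ) c.r, ∀ y ∈ U, gb₁ z =ᶠ[𝓝 y] gb z) : HF c d1 d2 U g₁ gb₁ where
  cd W z hz y hy := (h.cd W z hz y hy).congr_of_eventuallyEq (e W z hz y hy)
  cdb z hz y hy := (h.cdb z hz y hy).congr_of_eventuallyEq (eb z hz y hy)
  hb := h.hb.congr (fun W z hz y hy => cj_congr (e W z hz y hy))
    fun z hz y hy => cj_congr (eb z hz y hy)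
  lp := h.lp.congr fun W z hz y hy => by rw [cj_congr (e W z hz y hy)]

lemma hb1 (h : HF c d1 d2 U g gb) :
    HB c U (fun W z y => (cj d1 d2 (g W z) y).1) fun z y => (cj d1 d2 (gb z) y).1 :=
  h.hb.clm (ContinuousLinearMap.fst ℂ _ _)

lemma hb0 (h : HF c d1 d2 U g gb) : HB c U g gb := h.hb1.clm (ContinuousLinearMap.fst ℂ _ _)

lemma lp0 (h : HF c d1 d2 U g gb) : Lp c U g := h.lp.clm (ContinuousLinearMap.fst ℂ _ _)

lemma const {k : D → G} {C : ℝ} (hk : ∀ y ∈ U, ContDiffAt ℝ 2 k y)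
    (hC : ∀ y ∈ U, ‖cj d1 d2 k y‖ ≤ C) :
    HF c d1 d2 U (fun (_ : ι → ℝ) (_ : Pt ι τ) => k) fun _ => k :=
  ⟨fun _ _ _ => hk, fun _ _ => hk, HB.const hC, Lp.const (k := fun _ y => (cj d1 d2 k y).1)⟩

lemma param {E : Type} {V : Set E} {p : (ι → ℝ) → Pt ι τ → E → G} {pb : Pt ι τ → E → G}
    (h : HB c V p pb) (hl : Lp c V p) {a : E} (ha : a ∈ V) :
    HF c d1 d2 U (fun W z _ => p W z a) fun z _ => pb z a where
  cd _ _ _ _ _ := contDiffAt_const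
  cdb _ _ _ _ := contDiffAt_const
  hb := ((h.pre (T := fun _ => a) fun _ _ => ha).clm (jconstL G)).congr
    (fun _ _ _ _ _ => cj_const _) fun _ _ _ _ => cj_const _
  lp := ((hl.pre (T := fun _ => a) fun _ _ => ha).clm (ContinuousLinearMap.inl ℂ G (G × G))).congr
    fun _ _ _ _ _ => by rw [cj_const]; rfl

lemma prod (h : HF c d1 d2 U g gb) (h' : HF c d1 d2 U g' gb') :
    HF c d1 d2 U (fun W z y => (g W z y, g' W z y)) fun z y => (gb z y, gb' z y) := by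
  have k : ∀ (j : J2 G) (j' : J2 G'), jzip j j' = (t3Z G G' (j.1, j'.1), t3Z G G' (j.2, j'.2)) :=
    fun j j' => by rw [t3Z_apply, t3Z_apply]; rfl
  refine ⟨fun W z hz y hy => (h.cd W z hz y hy).prodMk (h'.cd W z hz y hy),
    fun z hz y hy => (h.cdb z hz y hy).prodMk (h'.cdb z hz y hy),
    (((h.hb1.prod h'.hb1).clm (t3Z G G')).prod (((h.hb.clm (ContinuousLinearMap.snd ℂ _ _)).prod
      (h'.hb.clm (ContinuousLinearMap.snd ℂ _ _))).clm (t3Z G G'))).congr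
      (fun W z hz y hy => ?_) fun z hz y hy => ?_,
    ((h.lp.prod h'.lp).clm (t3Z G G')).congr fun W z hz y hy => ?_⟩
  · rw [cj_prod (h.cd W z hz y hy) (h'.cd W z hz y hy), k]; rfl
  · rw [cj_prod (h.cdb z hz y hy) (h'.cdb z hz y hy), k]; rfl
  · rw [cj_prod (h.cd W z hz y hy) (h'.cd W z hz y hy), k]

lemma clm (h : HF c d1 d2 U g gb) (A : G →L[ℂ] G') :
    HF c d1 d2 U (fun W z y => A (g W z y)) fun z y => A (gb z y) :=
  ⟨fun W z hz y hy => (A.restrictScalars ℝ).contDiff.contDiffAt.comp y (h.cd W z hz y hy),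
    fun z hz y hy => (A.restrictScalars ℝ).contDiff.contDiffAt.comp y (h.cdb z hz y hy),
    (h.hb.clm ((t3C A).prodMap (t3C A))).congr
      (fun W z hz y hy => cj_clm (A.restrictScalars ℝ) (h.cd W z hz y hy))
      fun z hz y hy => cj_clm (A.restrictScalars ℝ) (h.cdb z hz y hy),
    (h.lp.clm (t3C A)).congr fun W z hz y hy =>
      congrArg Prod.fst (cj_clm (A.restrictScalars ℝ) (h.cd W z hz y hy))⟩

lemma add (h : HF c d1 d2 U g gb) (h' : HF c d1 d2 U g₁ gb₁) :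
    HF c d1 d2 U (fun W z y => g W z y + g₁ W z y) fun z y => gb z y + gb₁ z y :=
  (h.prod h').clm (ContinuousLinearMap.fst ℂ G G + ContinuousLinearMap.snd ℂ G G)

lemma pi {σ : Type} [Fintype σ] [DecidableEq σ] {g : σ → (ι → ℝ) → Pt ι τ → D → G}
    {gb : σ → Pt ι τ → D → G} (h : ∀ a, HF c d1 d2 U (g a) (gb a)) :
    HF c d1 d2 U (fun W z y a => g a W z y) fun z y a => gb a z y := by
  have k : ∀ s : Finset σ, HF c d1 d2 U
      (fun W z y => ∑ a ∈ s, ContinuousLinearMap.single ℂ (fun _ => G) a (g a W z y))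
      fun z y => ∑ a ∈ s, ContinuousLinearMap.single ℂ (fun _ => G) a (gb a z y) := fun s => by
    induction s using Finset.induction_on with
    | empty => exact const (k := fun _ => 0) (C := 0) (fun _ _ => contDiffAt_const) fun _ _ => by
                rw [cj_zero, norm_zero]
    | insert a s ha ih => simpa only [Finset.sum_insert ha] using ((h a).clm _).add ih
  simpa only [ContinuousLinearMap.single_apply, Finset.univ_sum_single] using k Finset.univ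

end HF

/-- `HF` near `y0` and on smaller domains -/
def HG (c : Cst) (d1 d2 y0 : D) (g : (ι → ℝ) → Pt ι τ → D → G) (gb : Pt ι τ → D → G) : Prop :=
  ∀ᶠ c' in c.sm, ∃ U ∈ 𝓝 y0, HF c' d1 d2 U g gb

lemma HF.hg (h : HF c' d1 d2 U g gb) (hc : c'.Le c) (hU : U ∈ 𝓝 y0) : HG c d1 d2 y0 g gb :=
  hc.ev.mono fun _ h1 => ⟨U, hU, h.mono h1 Subset.rfl⟩

namespace HG

lemma exists_hf (h : HG c d1 d2 y0 g gb) :
    ∃ c' : Cst, c'.Le c ∧ ∃ U ∈ 𝓝 y0, IsOpen U ∧ HF c' d1 d2 U g gb := by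
  obtain ⟨c', h1, U, hU, h2⟩ := Cst.exists_of_ev h
  exact ⟨c', h1, interior U, interior_mem_nhds.2 hU, isOpen_interior,
    h2.mono Cst.Le.rfl interior_subset⟩

lemma of_le (h : HG c' d1 d2 y0 g gb) (hc : c'.Le c) : HG c d1 d2 y0 g gb := by
  unfold HG at h ⊢; rwa [← hc.sm]

lemma mono (h : HG c d1 d2 y0 g gb) (hc : c'.Le c) : HG c' d1 d2 y0 g gb := by
  unfold HG at h ⊢; rwa [hc.sm]

lemma nhds (h : HG c d1 d2 y0 g gb) : ∀ᶠ y in 𝓝 y0, HG c d1 d2 y g gb := by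
  obtain ⟨c', h1, U, hU, ho, h2⟩ := h.exists_hf
  filter_upwards [hU] with y hy using h2.hg h1 (ho.mem_nhds hy)

lemma cdb (h : HG c d1 d2 y0 g gb) : ContDiffAt ℝ 2 (gb 0) y0 := by
  obtain ⟨c', -, U, hU, -, h2⟩ := h.exists_hf
  exact h2.cdb 0 (mem_ball_self c'.r_pos) y0 (mem_of_mem_nhds hU)

lemma congr (h : HG c d1 d2 y0 g gb)
    (e : ∀ᶠ c' in c.sm, ∀ᶠ y in 𝓝 y0, ∀ W z, c'.Ok W z → g₁ W z y = g W z y)
    (eb : ∀ᶠ c' in c.sm, ∀ᶠ y in 𝓝 y0, ∀ z ∈ ball (0 : Pt ι τ) c'.r, gb₁ z y = gb z y) :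
    HG c d1 d2 y0 g₁ gb₁ := by
  filter_upwards [h, e, eb] with c' ⟨U, hU, h1⟩ h2 h3
  refine ⟨_, inter_mem hU (h2.and h3).eventually_nhds, (h1.mono Cst.Le.rfl inter_subset_left).congr
    (fun W z hz y hy => hy.2.mono fun y' h4 => h4.1 W z hz)
    fun z hz y hy => hy.2.mono fun y' h4 => h4.2 z hz⟩

lemma congr' (h : HG c d1 d2 y0 g gb)
    (e : ∀ᶠ y in 𝓝 y0, ∀ W z, c.Ok W z → g₁ W z y = g W z y) : HG c d1 d2 y0 g₁ gb :=
  h.congr (c.ev_le.mono fun _ h1 => e.mono fun _ h2 W z hz => h2 W z (h1.ok hz))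
    (Eventually.of_forall fun _ => Eventually.of_forall fun _ _ _ => rfl)

lemma const {k : D → G} (hk : ContDiffAt ℝ 2 k y0) :
    HG c d1 d2 y0 (fun (_ : ι → ℝ) (_ : Pt ι τ) => k) fun _ => k := by
  have h1 := (contDiffAt_cj (d1 := d1) (d2 := d2) (n := 0) (by simpa using hk)).continuousAt
  exact (HF.const (fun y hy => hy.1) fun y hy => hy.2).hg Cst.Le.rfl
    ((hk.eventually (by simp)).and (h1.norm.eventually_le_const (lt_add_one _)))

lemma param {E : Type} {V : Set E} {p : (ι → ℝ) → Pt ι τ → E → G} {pb : Pt ι τ → E → G}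
    (h : HB c V p pb) (hl : Lp c V p) {a : E} (ha : a ∈ V) :
    HG c d1 d2 y0 (fun W z _ => p W z a) fun z _ => pb z a :=
  (HF.param h hl ha).hg Cst.Le.rfl univ_mem

lemma prod (h : HG c d1 d2 y0 g gb) (h' : HG c d1 d2 y0 g' gb') :
    HG c d1 d2 y0 (fun W z y => (g W z y, g' W z y)) fun z y => (gb z y, gb' z y) := by
  filter_upwards [h, h'] with c' ⟨U, hU, h1⟩ ⟨U', hU', h2⟩
  exact ⟨_, inter_mem hU hU', (h1.mono Cst.Le.rfl inter_subset_left).prod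
    (h2.mono Cst.Le.rfl inter_subset_right)⟩

lemma clm (h : HG c d1 d2 y0 g gb) (A : G →L[ℂ] G') :
    HG c d1 d2 y0 (fun W z y => A (g W z y)) fun z y => A (gb z y) :=
  Eventually.mono h fun _ ⟨U, hU, h1⟩ => ⟨U, hU, h1.clm A⟩

lemma pi {σ : Type} [Fintype σ] [DecidableEq σ] {g : σ → (ι → ℝ) → Pt ι τ → D → G}
    {gb : σ → Pt ι τ → D → G} (h : ∀ a, HG c d1 d2 y0 (g a) (gb a)) :
    HG c d1 d2 y0 (fun W z y a => g a W z y) fun z y a => gb a z y := by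
  filter_upwards [eventually_all.2 h] with c' h1
  choose U hU h2 using h1
  exact ⟨_, iInter_mem.2 hU, HF.pi fun a => (h2 a).mono Cst.Le.rfl (iInter_subset U a)⟩

/-- an operation on functions which acts holomorphically on jets -/
theorem op {K : Type} [NormedAddCommGroup K] [NormedSpace ℂ K] {T : D' → D} {k : D' → K}
    {Θ : K × J2 G → J2 G'} {Φ : (D → G) → D' → G'} {P : J2 G → Prop}
    (h : HG c d1 d2 (T y0') g gb) (hT : ContinuousAt T y0') (hk : ContinuousAt k y0')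
    (hΘ : ContDiffAt ℂ 1 Θ (k y0', cj d1 d2 (gb 0) (T y0')))
    (hΘ' : ContDiffAt ℂ 1 Θ (k y0', (cj d1 d2 (gb 0) (T y0')).1, 0))
    (h1 : ∀ a j, (Θ (a, j)).1 = (Θ (a, j.1, 0)).1)
    (hP : ∀ᶠ j in 𝓝 (cj d1 d2 (gb 0) (T y0')), P j)
    (hΦ : ∀ᶠ y in 𝓝 y0', ∀ f, ContDiffAt ℝ 2 f (T y) → P (cj d1 d2 f (T y)) →
      ContDiffAt ℝ 2 (Φ f) y ∧ cj d1' d2' (Φ f) y = Θ (k y, cj d1 d2 f (T y))) :
    HG c d1' d2' y0' (fun W z => Φ (g W z)) fun z => Φ (gb z) := by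
  have hc := ((contDiffAt_cj (d1 := d1) (d2 := d2) (n := 0)
    (by simpa using h.cdb)).continuousAt).comp hT
  obtain ⟨c', h2, U, hU, -, h3⟩ := h.exists_hf
  have hb : ∀ y ∈ T ⁻¹' U ∩ {y | ‖k y‖ ≤ ‖k y0'‖ + 1}, ‖k y‖ ≤ ‖k y0'‖ + 1 := fun y hy => hy.2
  have hm : MapsTo T (T ⁻¹' U ∩ {y | ‖k y‖ ≤ ‖k y0'‖ + 1}) U := fun y hy => hy.1
  have hn : T ⁻¹' U ∩ {y | ‖k y‖ ≤ ‖k y0'‖ + 1} ∈ 𝓝 y0' :=
    inter_mem (hT hU) (hk.norm.eventually_le_const (lt_add_one _))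
  have a1 := ((HB.const hb).prod (h3.hb.pre hm)).comp_loc (hk.prodMk hc) hΘ
    (P := fun x => P x.2) (continuous_snd.tendsto _ hP)
  have a2 := ((HB.const hb).prod (h3.hb1.pre hm)).comp_loc (hk.prodMk hc.fst)
    (Θ := fun x : K × T3 G => (Θ (x.1, x.2, 0)).1)
    (contDiffAt_fst.comp _ (hΘ'.comp _ (f := fun x : K × T3 G => (x.1, x.2, (0 : T3 G)))
      (by fun_prop))) (P := fun _ => True) (Eventually.of_forall fun _ => trivial)
  refine HG.of_le ?_ h2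
  filter_upwards [a1, a2, c'.ev_le] with c'' ⟨V, hV, b1, _, b2, b3⟩ ⟨V', hV', _, b4, _⟩ b5
  obtain ⟨V'', hV'', b6⟩ := hΦ.exists_mem
  have k1 := fun W z (hz : c''.Ok W z) y
    (hy : y ∈ ((T ⁻¹' U ∩ {y | ‖k y‖ ≤ ‖k y0'‖ + 1}) ∩ V) ∩ (V' ∩ V'')) =>
    b6 y hy.2.2 _ (h3.cd W z (b5.ok hz) _ hy.1.1.1) (b2 W z hz y hy.1)
  have k2 := fun z (hz : z ∈ ball (0 : Pt ι τ) c''.r) y
    (hy : y ∈ ((T ⁻¹' U ∩ {y | ‖k y‖ ≤ ‖k y0'‖ + 1}) ∩ V) ∩ (V' ∩ V'')) =>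
    b6 y hy.2.2 _ (h3.cdb z (b5.ball hz) _ hy.1.1.1) (b3 z hz y hy.1)
  refine ⟨_, inter_mem (inter_mem hn hV) (inter_mem hV' hV''), fun W z hz y hy => (k1 W z hz y hy).1,
    fun z hz y hy => (k2 z hz y hy).1, (b1.mono Cst.Le.rfl inter_subset_left).congr
      (fun W z hz y hy => (k1 W z hz y hy).2) fun z hz y hy => (k2 z hz y hy).2,
    ((b4 ((Lp.const (k := fun _ => k)).prod (h3.lp.pre hm))).mono Cst.Le.rfl
      fun y hy => ⟨hy.1.1, hy.2.1⟩).congr fun W z hz y hy => ?_⟩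
  rw [(k1 W z hz y hy).2, h1]

/-- composition with a holomorphic map -/
theorem comp (h : HG c d1 d2 y0 g gb) {Θ : G → G'} (hΘ : ContDiffAt ℂ 3 Θ (gb 0 y0)) :
    HG c d1 d2 y0 (fun W z y => Θ (g W z y)) fun z y => Θ (gb z y) := by
  have h1 : ∀ j : J2 G, j.1.1 = gb 0 y0 → ContDiffAt ℂ 1 (fun x : ℂ × J2 G => jcomp Θ x.2) (0, j) :=
    fun j hj => (contDiffAt_jcomp (n := 1) (by rw [hj]; exact hΘ.of_le (by norm_num))).comp _
      contDiffAt_snd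
  have h2 : ContinuousAt (fun j : J2 G => j.1.1) (cj d1 d2 (gb 0) y0) := by fun_prop
  exact op (T := id) (k := fun _ => (0 : ℂ)) (Φ := fun f y => Θ (f y))
    (P := fun j => ContDiffAt ℂ 2 Θ j.1.1) h continuousAt_id continuousAt_const (h1 _ rfl)
    (h1 _ rfl) (fun _ _ => rfl) (h2.eventually ((hΘ.of_le (by norm_num)).eventually (by simp)))
    (Eventually.of_forall fun y f a b => ⟨(b.restrict_scalars ℝ).comp y a, cj_comp b a⟩)

/-- composition with a holomorphic map with coefficients -/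
theorem comp₂ {K : Type} [NormedAddCommGroup K] [NormedSpace ℂ K] {k : D → K}
    (h : HG c d1 d2 y0 g gb) (hk : ContDiffAt ℝ 2 k y0) {Θ : K × G → G'}
    (hΘ : ContDiffAt ℂ 3 Θ (k y0, gb 0 y0)) :
    HG c d1 d2 y0 (fun W z y => Θ (k y, g W z y)) fun z y => Θ (k y, gb z y) :=
  ((const hk).prod h).comp hΘ

end HG

end Vale.Agent.P218HB
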